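import Vale.Agent.Lib.P126.Geo

/-!
P126-POW module PolarBody: elementary facts on symmetric bodies and polars.

* `zero_mem`: midpoint of `x` and `-x`.
* `smul_mem`: `x ∈ K`, `|t| ≤ 1` gives `t • x ∈ K` (convexity, symmetry, `0 ∈ K`).
* `exists_ball`: if `x` is interior to `K` with `ball x r ⊆ K`, then `ball 0 r ⊆ K` because
  `v = ((x + v) + (-x + v)) / 2` and `-x + v = -(x - v)`.
* `body_smul`: image of `K` under the homeomorphism `x ↦ t • x`.
* `body_inter`: the intersection of two symmetric bodies (both contain a ball around `0`).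
* `polar_body`: `polar K` is convex, closed; bounded because `ball 0 r ⊆ K` gives `‖y‖ ≤ 1/r`-type
  bound (for `y ≠ 0` use `x = (r/2) y/‖y‖`); contains the ball of radius `1/R` if `‖x‖ ≤ R` on `K`;
  symmetric.
* `bipolar`: if `x ∉ K` separate (`geometric_hahn_banach_closed_point` or
  `geometric_hahn_banach_point_closed`) by a functional `⟨y, .⟩` (Riesz,
  `InnerProductSpace.toDual`): `⟨y, k⟩ < u < ⟨y, x⟩` for `k ∈ K`, `u > 0` as `0 ∈ K`; then
  `u⁻¹ • y ∈ polar K` and `⟨u⁻¹ y, x⟩ > 1`.
* `polar_smul`: direct.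
-/

namespace P126

open Pointwise

variable {n : ℕ} {K L : Set (EuclideanSpace ℝ (Fin n))}

theorem zero_mem (hK : SymBody K) : (0 : EuclideanSpace ℝ (Fin n)) ∈ K := by
  obtain ⟨x, hx⟩ := hK.int
  have h1 : x ∈ K := interior_subset hx
  have h2 := hK.symm x h1
  have h3 := hK.convex h1 h2 (by norm_num : (0 : ℝ) ≤ 1 / 2) (by norm_num : (0 : ℝ) ≤ 1 / 2)
    (by norm_num)
  simpa using h3

theorem smul_mem (hK : SymBody K) {x : EuclideanSpace ℝ (Fin n)} (hx : x ∈ K) {t : ℝ}
    (ht : |t| ≤ 1) : t • x ∈ K := by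
  obtain ⟨h1, h2⟩ := abs_le.mp ht
  have h3 := hK.convex hx (hK.symm x hx) (a := (1 + t) / 2) (b := (1 - t) / 2) (by linarith)
    (by linarith) (by ring)
  have h4 : ((1 + t) / 2) • x + ((1 - t) / 2) • (-x) = t • x := by
    module
  rwa [h4] at h3

theorem exists_ball (hK : SymBody K) : ∃ r > 0, Metric.ball 0 r ⊆ K := by
  obtain ⟨x, hx⟩ := hK.int
  obtain ⟨r, hr, hb⟩ := Metric.isOpen_iff.mp isOpen_interior x hx
  refine ⟨r, hr, ?_⟩
  intro v hv
  have hv' : ‖v‖ < r := by simpa using hv
  have h1 : x + v ∈ K := interior_subset (hb (by simpa [Metric.mem_ball, dist_eq_norm] using hv'))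
  have h2 : x - v ∈ K := interior_subset (hb (by simpa [Metric.mem_ball, dist_eq_norm] using hv'))
  have h3 := hK.convex h1 (hK.symm _ h2) (by norm_num : (0 : ℝ) ≤ 1 / 2)
    (by norm_num : (0 : ℝ) ≤ 1 / 2) (by norm_num)
  have h4 : ((1 : ℝ) / 2) • (x + v) + ((1 : ℝ) / 2) • (-(x - v)) = v := by
    module
  rwa [h4] at h3

theorem body_smul (hK : SymBody K) {t : ℝ} (ht : 0 < t) : SymBody (t • K) := by
  refine ⟨hK.convex.smul t, hK.compact.smul t, ?_, ?_⟩
  · rw [interior_smul₀ ht.ne']
    exact hK.int.smul_set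
  · rintro x ⟨k, hk, rfl⟩
    exact ⟨-k, hK.symm k hk, by simp⟩

theorem body_inter (hK : SymBody K) (hL : SymBody L) : SymBody (K ∩ L) := by
  refine ⟨hK.convex.inter hL.convex, hK.compact.inter hL.compact, ?_, ?_⟩
  · obtain ⟨r, hr, h1⟩ := exists_ball hK
    obtain ⟨r', hr', h2⟩ := exists_ball hL
    refine ⟨0, ?_⟩
    rw [interior_inter]
    exact ⟨interior_maximal h1 Metric.isOpen_ball (Metric.mem_ball_self hr),
      interior_maximal h2 Metric.isOpen_ball (Metric.mem_ball_self hr')⟩
  · intro x hx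
    exact ⟨hK.symm x hx.1, hL.symm x hx.2⟩

theorem exists_norm_le (hK : SymBody K) : ∃ R > 0, ∀ x ∈ K, ‖x‖ ≤ R := by
  obtain ⟨R, hR⟩ := hK.compact.isBounded.exists_norm_le
  exact ⟨max R 1, lt_max_of_lt_right one_pos, fun x hx => (hR x hx).trans (le_max_left _ _)⟩

theorem polar_body (hK : SymBody K) : SymBody (polar K) := by
  refine ⟨?_, ?_, ?_, ?_⟩
  · intro y hy z hz a b ha hb hab x hx
    rw [inner_add_right, real_inner_smul_right, real_inner_smul_right]
    have h1 := hy x hx
    have h2 := hz x hx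
    nlinarith [mul_le_mul_of_nonneg_left h1 ha, mul_le_mul_of_nonneg_left h2 hb]
  · obtain ⟨r, hr, hb⟩ := exists_ball hK
    refine Metric.isCompact_of_isClosed_isBounded ?_ ?_
    · have h1 : polar K = ⋂ x ∈ K, {y : EuclideanSpace ℝ (Fin n) | inner ℝ x y ≤ 1} := by
        ext y
        simp [polar]
      rw [h1]
      exact isClosed_biInter (fun x _ => isClosed_le (by fun_prop) continuous_const)
    · rw [isBounded_iff_forall_norm_le]
      refine ⟨2 / r, fun y hy => ?_⟩
      by_cases hy0 : y = 0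
      · rw [hy0, norm_zero]
        positivity
      · have hyn : 0 < ‖y‖ := norm_pos_iff.mpr hy0
        have h1 : ((r / 2) / ‖y‖) • y ∈ K := by
          apply hb
          rw [mem_ball_zero_iff, norm_smul, Real.norm_eq_abs, abs_of_pos (by positivity)]
          rw [div_mul_cancel₀ _ hyn.ne']
          linarith
        have h2 := hy _ h1
        rw [real_inner_smul_left, real_inner_self_eq_norm_sq] at h2
        have h3 : r / 2 / ‖y‖ * ‖y‖ ^ 2 = r / 2 * ‖y‖ := by
          field_simp
        rw [h3] at h2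
        rw [le_div_iff₀ hr]
        linarith
  · obtain ⟨R, hR, hb⟩ := exists_norm_le hK
    refine ⟨0, ?_⟩
    refine interior_maximal (t := Metric.ball 0 (1 / R)) ?_ Metric.isOpen_ball
      (Metric.mem_ball_self (by positivity))
    intro y hy x hx
    have h1 : ‖y‖ < 1 / R := by simpa using hy
    calc inner ℝ x y ≤ ‖x‖ * ‖y‖ := real_inner_le_norm x y
      _ ≤ R * (1 / R) := mul_le_mul (hb x hx) h1.le (norm_nonneg _) hR.le
      _ = 1 := by field_simp
  · intro y hy x hx
    have h1 := hy (-x) (hK.symm x hx)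
    rw [inner_neg_left] at h1
    rw [inner_neg_right]
    exact h1

theorem bipolar (hK : SymBody K) : polar (polar K) = K := by
  apply Set.Subset.antisymm
  · intro x hx
    by_contra hxK
    obtain ⟨f, u, h1, h2⟩ := geometric_hahn_banach_closed_point hK.convex hK.compact.isClosed hxK
    have hu : 0 < u := by
      have h3 := h1 0 (zero_mem hK)
      simpa using h3
    set y := (InnerProductSpace.toDual ℝ (EuclideanSpace ℝ (Fin n))).symm f with hy
    have hf : ∀ z, inner ℝ y z = f z := fun z => InnerProductSpace.toDual_symm_apply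
    have hyp : u⁻¹ • y ∈ polar K := by
      intro k hk
      rw [real_inner_smul_right, real_inner_comm, hf]
      have h3 := (h1 k hk).le
      rw [inv_mul_le_iff₀ hu]
      linarith
    have h4 := hx _ hyp
    rw [real_inner_smul_left, hf, inv_mul_le_iff₀ hu] at h4
    linarith
  · intro x hx y hy
    rw [real_inner_comm]
    exact hy x hx

theorem polar_smul {t : ℝ} (ht : 0 < t) : polar (t • K) = t⁻¹ • polar K := by
  ext y
  rw [Set.mem_inv_smul_set_iff₀ ht.ne']
  constructor
  · intro hy x hx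
    have h1 := hy (t • x) (Set.smul_mem_smul_set hx)
    rw [real_inner_smul_left] at h1
    rw [real_inner_smul_right]
    exact h1
  · rintro hy _ ⟨x, hx, rfl⟩
    have h1 := hy x hx
    rw [real_inner_smul_right] at h1
    simp only []
    rw [real_inner_smul_left]
    exact h1

/-- `K` is absorbed by every symmetric body. -/
theorem exists_subset_smul (hK : SymBody K) (hL : SymBody L) :
    ∃ J : ℕ, K ⊆ ((2 : ℝ) ^ J) • L := by
  obtain ⟨R, hR, hb⟩ := exists_norm_le hK
  obtain ⟨r, hr, hball⟩ := exists_ball hL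
  obtain ⟨J, hJ⟩ := pow_unbounded_of_one_lt (R / r) (by norm_num : (1 : ℝ) < 2)
  refine ⟨J, ?_⟩
  intro x hx
  have h2J : (0 : ℝ) < 2 ^ J := by positivity
  rw [Set.mem_smul_set_iff_inv_smul_mem₀ h2J.ne']
  apply hball
  rw [mem_ball_zero_iff, norm_smul, norm_inv, Real.norm_eq_abs, abs_of_pos h2J,
    inv_mul_lt_iff₀ h2J]
  rw [div_lt_iff₀ hr] at hJ
  exact lt_of_le_of_lt (hb x hx) hJ

end P126
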