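import Vale.Agent.Lib.P126.Geo
import Vale.Agent.Lib.P126.PolarBody

/-!
P126-POW module BodyNorm: the normed space with unit ball `L`.

Proof.  The Minkowski functional `gauge L` of the symmetric convex body `L` is a norm:
`gaugeSeminorm` (needs `Balanced ℝ L`, `Convex ℝ L`, `Absorbent ℝ L`, all from `smul_mem`,
`exists_ball`), and it is definite because `L` is bounded (`gauge_eq_zero`-type lemma or
`Seminorm` + `gauge` `< ε` implies `x ∈ ε L`).  As `L` is closed and contains `0` in the interior,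
`gauge L x ≤ 1 ↔ x ∈ L` (`gauge_le_one_iff_mem_closure` or similar for closed convex nhds of `0`).
Put the norm on a type synonym `E` of `EuclideanSpace ℝ (Fin n)` (a `def` with the inherited
`AddCommGroup` and `Module` structures; `AddGroupNorm.toNormedAddCommGroup`,
`NormedSpace.mk`/`NormedSpace.Core`), `φ` the identity linear equivalence; finite dimensional by
transfer along `φ`.
If `‖f‖ ≤ 1`, the functional `f ∘ φ` on the Euclidean space is linear, hence continuous (finite
dimension, `LinearMap.toContinuousLinearMap`), so by Riesz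
(`InnerProductSpace.toDual`) `f (φ x) = ⟪g, x⟫`; for `x ∈ L`, `⟪x, g⟫ = f (φ x) ≤ ‖φ x‖ ≤ 1`.
-/

namespace P126

open Pointwise

/-- The type synonym carrying the gauge norm of a body `L`. -/
def GSp {n : ℕ} (_L : Set (EuclideanSpace ℝ (Fin n))) : Type := EuclideanSpace ℝ (Fin n)

noncomputable instance instGSpGroup {n : ℕ} (L : Set (EuclideanSpace ℝ (Fin n))) :
    AddCommGroup (GSp L) :=
  inferInstanceAs (AddCommGroup (EuclideanSpace ℝ (Fin n)))

noncomputable instance instGSpModule {n : ℕ} (L : Set (EuclideanSpace ℝ (Fin n))) :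
    Module ℝ (GSp L) :=
  inferInstanceAs (Module ℝ (EuclideanSpace ℝ (Fin n)))

noncomputable instance instGSpNorm {n : ℕ} (L : Set (EuclideanSpace ℝ (Fin n))) :
    Norm (GSp L) :=
  ⟨fun x => gauge L (x : EuclideanSpace ℝ (Fin n))⟩

/-- The identity map. -/
noncomputable def toGSp {n : ℕ} (L : Set (EuclideanSpace ℝ (Fin n))) :
    EuclideanSpace ℝ (Fin n) ≃ₗ[ℝ] GSp L :=
  LinearEquiv.refl ℝ (EuclideanSpace ℝ (Fin n))

theorem norm_toGSp {n : ℕ} (L : Set (EuclideanSpace ℝ (Fin n)))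
    (x : EuclideanSpace ℝ (Fin n)) : ‖toGSp L x‖ = gauge L x := rfl

theorem mem_nhds_body {n : ℕ} {L : Set (EuclideanSpace ℝ (Fin n))} (hL : SymBody L) :
    L ∈ nhds (0 : EuclideanSpace ℝ (Fin n)) := by
  obtain ⟨r, hr, hb⟩ := exists_ball hL
  exact Filter.mem_of_superset (Metric.ball_mem_nhds _ hr) hb

theorem gsp_core {n : ℕ} {L : Set (EuclideanSpace ℝ (Fin n))} (hL : SymBody L) :
    NormedSpace.Core ℝ (GSp L) := by
  have hnhds := mem_nhds_body hL
  have habs : Absorbent ℝ L := absorbent_nhds_zero hnhds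
  have hbdd : Bornology.IsVonNBounded ℝ L :=
    (NormedSpace.isVonNBounded_iff ℝ).mpr hL.compact.isBounded
  have hbal : Balanced ℝ L := by
    intro a ha x hx
    obtain ⟨y, hy, rfl⟩ := hx
    exact smul_mem hL hy (by simpa using ha)
  exact
    { norm_nonneg := fun x => gauge_nonneg (s := L) (x : EuclideanSpace ℝ (Fin n))
      norm_smul := fun c x => gauge_smul hbal c (x : EuclideanSpace ℝ (Fin n))
      norm_triangle := fun x y => gauge_add_le hL.convex habs
        (x : EuclideanSpace ℝ (Fin n)) (y : EuclideanSpace ℝ (Fin n))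
      norm_eq_zero_iff := fun x =>
        (gauge_eq_zero (E := EuclideanSpace ℝ (Fin n)) habs hbdd : gauge L x = 0 ↔ x = 0) }

theorem exists_norm {n : ℕ} {L : Set (EuclideanSpace ℝ (Fin n))} (hL : SymBody L) :
    ∃ (E : Type) (_ : NormedAddCommGroup E) (_ : NormedSpace ℝ E) (_ : FiniteDimensional ℝ E)
      (φ : EuclideanSpace ℝ (Fin n) ≃ₗ[ℝ] E), (∀ x, x ∈ L ↔ ‖φ x‖ ≤ 1) ∧
      ∀ f : E →L[ℝ] ℝ, ‖f‖ ≤ 1 → ∃ g ∈ polar L, ∀ x, f (φ x) = inner ℝ x g := by
  let N : NormedAddCommGroup (GSp L) := NormedAddCommGroup.ofCore (gsp_core hL)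
  let S : NormedSpace ℝ (GSp L) := NormedSpace.ofCore (gsp_core hL)
  have hfin : FiniteDimensional ℝ (GSp L) :=
    Module.Finite.equiv (toGSp L)
  have key : ∀ x, x ∈ L ↔ ‖toGSp L x‖ ≤ 1 := by
    intro x
    have h := gauge_le_one_iff_mem_closure (x := x) hL.convex (mem_nhds_body hL)
    rw [hL.compact.isClosed.closure_eq] at h
    exact h.symm
  refine ⟨GSp L, N, S, hfin, toGSp L, key, ?_⟩
  intro f hf
  let F : EuclideanSpace ℝ (Fin n) →L[ℝ] ℝ :=
    LinearMap.toContinuousLinearMap ((f : GSp L →ₗ[ℝ] ℝ) ∘ₗ (toGSp L : _ →ₗ[ℝ] GSp L))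
  have hF : ∀ x, F x = f (toGSp L x) := fun x => rfl
  refine ⟨(InnerProductSpace.toDual ℝ (EuclideanSpace ℝ (Fin n))).symm F, ?_, ?_⟩
  · intro x hx
    rw [real_inner_comm, InnerProductSpace.toDual_symm_apply, hF]
    calc f (toGSp L x) ≤ ‖f (toGSp L x)‖ := Real.le_norm_self _
      _ ≤ ‖f‖ * ‖toGSp L x‖ := f.le_opNorm _
      _ ≤ 1 * 1 := mul_le_mul hf ((key x).mp hx) (norm_nonneg _) zero_le_one
      _ = 1 := one_mul 1
  · intro x
    rw [real_inner_comm, InnerProductSpace.toDual_symm_apply, hF]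

end P126
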