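import Vale.Agent.Lib.P126.Cover

/-!
P126-POW module CodeCover: a long code forces a large covering number of the polar.

Proof.  `v i = ⟪z i, g i⟫ ∈ [-4, 4]`, because `z i ∈ K ⊆ 4 L`, `g i ∈ polar L` (symmetric).  Put
`b i = ⌊(v i + 4) / (δ/2)⌋₊ ∈ {0, …, ⌊16/δ⌋₊}`: at most `16/δ + 1` values.  For a value `k` let
`I_k = {i : b i = k}`.  For `i < j` in `I_k`: `v i < v j + δ/2`, so
`⟪z j, g i⟫ ≤ v i - δ < v j - δ/2`, i.e. `⟪z j, g j - g i⟫ > δ/2`.  As `z j ∈ K`, `g j - g i` is not in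
`(δ/3) • polar K`, and by symmetry `g i - g j` neither.  In particular `g` is injective on `I_k` and
`{g i : i ∈ I_k} ⊆ polar L` is separated for `(δ/3) polar K`; `sep_card_le` with
`B' = (δ/6) polar K` (`u, v ∈ (δ/6) P` gives `u - v ∈ (δ/3) P`) gives
`|I_k| ≤ cov (polar L) ((δ/6) polar K)`.  Sum over `k`
(`Finset.card_eq_sum_card_fiberwise`).
-/

namespace P126

open Pointwise Finset

/-- The code separates the functionals inside one class. -/
theorem code_sep {n : ℕ} {K : Set (EuclideanSpace ℝ (Fin n))} (hK : SymBody K)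
    {δ : ℝ} (hδ : 0 < δ) {zj gi gj : EuclideanSpace ℝ (Fin n)} (hz : zj ∈ K)
    {vi : ℝ} (hcode : inner ℝ zj gi + δ ≤ vi) (hv : vi < inner ℝ zj gj + δ / 2) :
    gj - gi ∉ (δ / 3) • polar K ∧ gi - gj ∉ (δ / 3) • polar K := by
  have key : ∀ w ∈ (δ / 3) • polar K, inner ℝ zj w ≤ δ / 3 := by
    rintro w ⟨y, hy, rfl⟩
    have h1 : inner ℝ zj y ≤ 1 := hy zj hz
    show inner ℝ zj ((δ / 3) • y) ≤ δ / 3
    rw [real_inner_smul_right]
    nlinarith
  have h1 : gj - gi ∉ (δ / 3) • polar K := by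
    intro h
    have h2 := key _ h
    rw [inner_sub_right] at h2
    linarith
  refine ⟨h1, fun h => h1 ?_⟩
  obtain ⟨y, hy, hyw⟩ := h
  refine ⟨-y, (polar_body hK).symm y hy, ?_⟩
  have h3 : (δ / 3) • y = gi - gj := hyw
  show (δ / 3) • (-y) = gj - gi
  rw [smul_neg, h3, neg_sub]

theorem code_class {n : ℕ} {K L : Set (EuclideanSpace ℝ (Fin n))} (hK : SymBody K)
    (hL : SymBody L) {δ : ℝ} (hδ : 0 < δ) (m : ℕ)
    (z g : Fin m → EuclideanSpace ℝ (Fin n)) (hz : ∀ i, z i ∈ K) (hg : ∀ i, g i ∈ polar L)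
    (hcode : ∀ i j, i < j → inner ℝ (z j) (g i) + δ ≤ inner ℝ (z i) (g i))
    (I : Finset (Fin m))
    (hI : ∀ i ∈ I, ∀ j ∈ I, inner ℝ (z i) (g i) < inner ℝ (z j) (g j) + δ / 2) :
    I.card ≤ cov (polar L) ((δ / 6) • polar K) := by
  classical
  have hsep : ∀ i ∈ I, ∀ j ∈ I, i ≠ j → g i - g j ∉ (δ / 3) • polar K := by
    intro i hi j hj hij
    rcases lt_or_gt_of_ne hij with h | h
    · exact (code_sep hK hδ (hz j) (hcode i j h) (hI i hi j hj)).2
    · exact (code_sep hK hδ (hz i) (hcode j i h) (hI j hj i hi)).1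
  have h0 : (0 : EuclideanSpace ℝ (Fin n)) ∈ (δ / 3) • polar K :=
    ⟨0, zero_mem (polar_body hK), smul_zero _⟩
  have hinj : Set.InjOn g (I : Set (Fin m)) := by
    intro i hi j hj hij
    by_contra hne
    apply hsep i hi j hj hne
    rw [hij, sub_self]
    exact h0
  rw [← Finset.card_image_of_injOn hinj]
  apply sep_card_le (B := (δ / 3) • polar K) (polar_body hL).compact
    (body_smul (polar_body hK) (by positivity))
  · rintro u ⟨a, ha, rfl⟩ v ⟨b, hb, rfl⟩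
    have hb' := (polar_body hK).symm b hb
    have hc := (polar_body hK).convex ha hb' (a := 1 / 2) (b := 1 / 2) (by norm_num)
      (by norm_num) (by norm_num)
    refine ⟨_, hc, ?_⟩
    show (δ / 3) • ((1 / 2 : ℝ) • a + (1 / 2 : ℝ) • (-b)) = (δ / 6) • a - (δ / 6) • b
    rw [smul_add, smul_smul, smul_smul, smul_neg, sub_eq_add_neg]
    congr 2
    · ring_nf
    · ring_nf
  · intro x hx
    obtain ⟨i, _, rfl⟩ := Finset.mem_image.1 hx
    exact hg i
  · intro x hx y hy hxy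
    obtain ⟨i, hi, rfl⟩ := Finset.mem_image.1 hx
    obtain ⟨j, hj, rfl⟩ := Finset.mem_image.1 hy
    exact hsep i hi j hj (fun h => hxy (by rw [h]))

theorem code_cover {n : ℕ} {K L : Set (EuclideanSpace ℝ (Fin n))} (hK : SymBody K)
    (hL : SymBody L) (hKL : K ⊆ (4 : ℝ) • L) {δ : ℝ} (hδ : 0 < δ) (m : ℕ)
    (z g : Fin m → EuclideanSpace ℝ (Fin n)) (hz : ∀ i, z i ∈ K) (hg : ∀ i, g i ∈ polar L)
    (hcode : ∀ i j, i < j → inner ℝ (z j) (g i) + δ ≤ inner ℝ (z i) (g i)) :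
    (m : ℝ) ≤ (16 / δ + 1) * cov (polar L) ((δ / 6) • polar K) := by
  classical
  have hub : ∀ i, inner ℝ (z i) (g i) ≤ 4 := by
    intro i
    obtain ⟨l, hl, hlz⟩ := hKL (hz i)
    have h1 : inner ℝ l (g i) ≤ 1 := hg i l hl
    have h2 : z i = (4 : ℝ) • l := hlz.symm
    rw [h2, real_inner_smul_left]
    linarith
  have hlb : ∀ i, -4 ≤ inner ℝ (z i) (g i) := by
    intro i
    obtain ⟨l, hl, hlz⟩ := hKL (hz i)
    have h1 : inner ℝ (-l) (g i) ≤ 1 := hg i (-l) (hL.symm l hl)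
    have h2 : z i = (4 : ℝ) • l := hlz.symm
    rw [inner_neg_left] at h1
    rw [h2, real_inner_smul_left]
    linarith
  obtain ⟨b, hb⟩ : ∃ b : Fin m → ℕ, b = fun i => ⌊(inner ℝ (z i) (g i) + 4) / (δ / 2)⌋₊ :=
    ⟨_, rfl⟩
  have hbi : ∀ i, b i = ⌊(inner ℝ (z i) (g i) + 4) / (δ / 2)⌋₊ := fun i => by rw [hb]
  have hmaps : ∀ i ∈ (Finset.univ : Finset (Fin m)), b i ∈ Finset.range (⌊16 / δ⌋₊ + 1) := by
    intro i _
    rw [Finset.mem_range, Nat.lt_succ_iff, hbi]
    apply Nat.floor_le_floor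
    rw [div_le_div_iff₀ (by positivity) hδ]
    have := hub i
    nlinarith
  have hcard := Finset.card_eq_sum_card_fiberwise (f := b) (s := Finset.univ)
    (t := Finset.range (⌊16 / δ⌋₊ + 1)) (fun i hi => hmaps i hi)
  rw [Finset.card_univ, Fintype.card_fin] at hcard
  have hle : m ≤ (⌊16 / δ⌋₊ + 1) * cov (polar L) ((δ / 6) • polar K) := by
    rw [hcard]
    refine (Finset.sum_le_card_nsmul _ _ (cov (polar L) ((δ / 6) • polar K)) ?_).trans ?_
    · intro k _
      apply code_class hK hL hδ m z g hz hg hcode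
      intro i hi j hj
      have hi' : b i = k := (Finset.mem_filter.1 hi).2
      have hj' : b j = k := (Finset.mem_filter.1 hj).2
      rw [hbi] at hi' hj'
      have h1 : (inner ℝ (z i) (g i) + 4) / (δ / 2) < (k : ℝ) + 1 := by
        rw [← hi']
        exact Nat.lt_floor_add_one _
      have h2 : (k : ℝ) ≤ (inner ℝ (z j) (g j) + 4) / (δ / 2) := by
        rw [← hj']
        apply Nat.floor_le
        apply div_nonneg _ (by positivity)
        have := hlb j
        linarith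
      have h3 : (inner ℝ (z i) (g i) + 4) / (δ / 2) < (inner ℝ (z j) (g j) + 4) / (δ / 2) + 1 :=
        lt_of_lt_of_le h1 (by linarith)
      have h4 : (0 : ℝ) < δ / 2 := by positivity
      have h5 : (inner ℝ (z j) (g j) + 4) / (δ / 2) + 1
          = (inner ℝ (z j) (g j) + 4 + δ / 2) / (δ / 2) := by
        field_simp
      rw [h5, div_lt_div_iff_of_pos_right h4] at h3
      linarith
    · rw [Finset.card_range, smul_eq_mul]
  have hfl : ((⌊16 / δ⌋₊ : ℕ) : ℝ) ≤ 16 / δ := Nat.floor_le (by positivity)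
  calc (m : ℝ) ≤ (((⌊16 / δ⌋₊ + 1) * cov (polar L) ((δ / 6) • polar K) : ℕ) : ℝ) := by
        exact_mod_cast hle
    _ = ((⌊16 / δ⌋₊ : ℝ) + 1) * (cov (polar L) ((δ / 6) • polar K) : ℝ) := by push_cast; ring
    _ ≤ (16 / δ + 1) * cov (polar L) ((δ / 6) • polar K) := by
        apply mul_le_mul_of_nonneg_right (by linarith) (Nat.cast_nonneg _)

end P126
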