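import Vale.Agent.Lib.P126.Geo
import Vale.Agent.Lib.P126.PolarBody

/-!
P126-POW module Cover: elementary facts on covering numbers.

* membership: `a ∈ s +ᵥ B ↔ a - s ∈ B` (`Set.mem_vadd_set_iff_neg_vadd_mem` or directly).
* `cov_spec`: the set of admissible `m` is nonempty: `A` compact is covered by finitely many
  translates of `ball 0 r ⊆ B` (`exists_ball`, `IsCompact.finite_cover_balls`); then `Nat.sInf_mem`.
* `cov_le`: `Nat.sInf_le`.
* `exists_sep`: take a finite cover `S` of `A` by translates of `(1/2) • B`.  Every finite `X ⊆ A`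
  with pairwise differences outside `B` has `|X| ≤ |S|` (pigeonhole, two points in the same translate
  of `(1/2) B` differ by an element of `B`).  So there is one with maximal cardinality (`Nat.find`-type
  or strong induction); by maximality every `a ∈ A` has `x ∈ X` with `a - x ∈ B` (take `x = a` if
  `a ∈ X`), so `cov A B ≤ |X|`.
* `sep_card_le`: pigeonhole on a minimal cover.
* the rest: direct from `cov_spec` and `cov_le`.
-/

namespace P126

open Pointwise

variable {n : ℕ} {A A' B B' : Set (EuclideanSpace ℝ (Fin n))}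

theorem cover_mem_vadd_iff {a s : EuclideanSpace ℝ (Fin n)} : a ∈ s +ᵥ B ↔ a - s ∈ B := by
  rw [Set.mem_vadd_set_iff_neg_vadd_mem, vadd_eq_add, neg_add_eq_sub]

theorem cover_subset_iff {S : Finset (EuclideanSpace ℝ (Fin n))} :
    A ⊆ ⋃ s ∈ S, s +ᵥ B ↔ ∀ a ∈ A, ∃ s ∈ S, a - s ∈ B := by
  constructor
  · intro h a ha
    have := h ha
    rw [Set.mem_iUnion₂] at this
    obtain ⟨s, hs, hsa⟩ := this
    exact ⟨s, hs, cover_mem_vadd_iff.1 hsa⟩
  · intro h a ha
    obtain ⟨s, hs, hsa⟩ := h a ha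
    rw [Set.mem_iUnion₂]
    exact ⟨s, hs, cover_mem_vadd_iff.2 hsa⟩

theorem cov_le {S : Finset (EuclideanSpace ℝ (Fin n))} (hS : ∀ a ∈ A, ∃ s ∈ S, a - s ∈ B) :
    cov A B ≤ S.card :=
  Nat.sInf_le ⟨S, rfl, cover_subset_iff.2 hS⟩

theorem cov_spec (hA : IsCompact A) (hB : SymBody B) :
    ∃ S : Finset (EuclideanSpace ℝ (Fin n)), S.card = cov A B ∧ ∀ a ∈ A, ∃ s ∈ S, a - s ∈ B := by
  obtain ⟨r, hr, hrB⟩ := exists_ball hB
  obtain ⟨t, -, htf, ht⟩ := hA.finite_cover_balls hr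
  have hne : {m : ℕ | ∃ S : Finset (EuclideanSpace ℝ (Fin n)),
      S.card = m ∧ A ⊆ ⋃ s ∈ S, s +ᵥ B}.Nonempty := by
    refine ⟨htf.toFinset.card, htf.toFinset, rfl, ?_⟩
    rw [cover_subset_iff]
    intro a ha
    have := ht ha
    rw [Set.mem_iUnion₂] at this
    obtain ⟨s, hs, hsa⟩ := this
    refine ⟨s, htf.mem_toFinset.2 hs, hrB ?_⟩
    rw [mem_ball_zero_iff, ← dist_eq_norm]
    exact hsa
  obtain ⟨S, hS, hS2⟩ := Nat.sInf_mem hne
  exact ⟨S, hS, cover_subset_iff.1 hS2⟩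

theorem one_le_cov (hA : IsCompact A) (hA0 : A.Nonempty) (hB : SymBody B) : 1 ≤ cov A B := by
  obtain ⟨S, hS, hS2⟩ := cov_spec hA hB
  obtain ⟨a, ha⟩ := hA0
  obtain ⟨s, hs, -⟩ := hS2 a ha
  rw [← hS]
  exact Finset.card_pos.2 ⟨s, hs⟩

theorem cov_mono_left (hA : IsCompact A') (hB : SymBody B) (h : A ⊆ A') :
    cov A B ≤ cov A' B := by
  obtain ⟨S, hS, hS2⟩ := cov_spec hA hB
  rw [← hS]
  exact cov_le fun a ha => hS2 a (h ha)

theorem cov_mono_right (hA : IsCompact A) (hB : SymBody B) (h : B ⊆ B') :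
    cov A B' ≤ cov A B := by
  obtain ⟨S, hS, hS2⟩ := cov_spec hA hB
  rw [← hS]
  refine cov_le fun a ha => ?_
  obtain ⟨s, hs, hsa⟩ := hS2 a ha
  exact ⟨s, hs, h hsa⟩

theorem cov_smul_aux {t : ℝ} (ht : 0 < t) {m : ℕ}
    (h : ∃ S : Finset (EuclideanSpace ℝ (Fin n)), S.card = m ∧ A ⊆ ⋃ s ∈ S, s +ᵥ B) :
    ∃ S : Finset (EuclideanSpace ℝ (Fin n)), S.card = m ∧ t • A ⊆ ⋃ s ∈ S, s +ᵥ t • B := by
  classical
  obtain ⟨S, hS, hS2⟩ := h
  rw [cover_subset_iff] at hS2
  refine ⟨S.image fun s => t • s, ?_, ?_⟩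
  · rw [Finset.card_image_of_injective _ (smul_right_injective _ ht.ne'), hS]
  · rw [cover_subset_iff]
    intro a ha
    obtain ⟨a', ha', rfl⟩ := Set.mem_smul_set.1 ha
    obtain ⟨s, hs, hsa⟩ := hS2 a' ha'
    refine ⟨t • s, Finset.mem_image_of_mem _ hs, ?_⟩
    rw [← smul_sub]
    exact Set.smul_mem_smul_set hsa

theorem cov_smul {t : ℝ} (ht : 0 < t) : cov (t • A) (t • B) = cov A B := by
  unfold cov
  congr 1
  ext m
  constructor
  · intro h
    have := cov_smul_aux (inv_pos.2 ht) h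
    rwa [inv_smul_smul₀ ht.ne', inv_smul_smul₀ ht.ne'] at this
  · intro h
    exact cov_smul_aux ht h

theorem sep_card_le (hA : IsCompact A) (hB' : SymBody B') (hBB : ∀ u ∈ B', ∀ v ∈ B', u - v ∈ B)
    {X : Finset (EuclideanSpace ℝ (Fin n))} (hX : ∀ x ∈ X, x ∈ A)
    (hsep : ∀ x ∈ X, ∀ y ∈ X, x ≠ y → x - y ∉ B) : X.card ≤ cov A B' := by
  obtain ⟨S, hS, hS2⟩ := cov_spec hA hB'
  rw [← hS]
  choose! g hg using hS2
  refine Finset.card_le_card_of_injOn g (fun x hx => (hg x (hX x hx)).1) ?_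
  intro x hx y hy hxy
  by_contra hne
  refine hsep x hx y hy hne ?_
  have h1 := (hg x (hX x hx)).2
  have h2 := (hg y (hX y hy)).2
  rw [← hxy] at h2
  have := hBB _ h1 _ h2
  rwa [sub_sub_sub_cancel_right] at this

theorem exists_sep (hA : IsCompact A) (hB : SymBody B) :
    ∃ X : Finset (EuclideanSpace ℝ (Fin n)), (∀ x ∈ X, x ∈ A) ∧
      (∀ x ∈ X, ∀ y ∈ X, x ≠ y → x - y ∉ B) ∧ cov A B ≤ X.card := by
  classical
  have hhalf : SymBody ((1 / 2 : ℝ) • B) := body_smul hB (by norm_num)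
  have hBB : ∀ u ∈ (1 / 2 : ℝ) • B, ∀ v ∈ (1 / 2 : ℝ) • B, u - v ∈ B := by
    intro u hu v hv
    obtain ⟨u', hu', rfl⟩ := Set.mem_smul_set.1 hu
    obtain ⟨v', hv', rfl⟩ := Set.mem_smul_set.1 hv
    have h := hB.convex hu' (hB.symm v' hv') (by norm_num : (0 : ℝ) ≤ 1 / 2)
      (by norm_num : (0 : ℝ) ≤ 1 / 2) (by norm_num)
    rwa [smul_neg, ← sub_eq_add_neg] at h
  let P : ℕ → Prop := fun m => ∃ X : Finset (EuclideanSpace ℝ (Fin n)), X.card = m ∧
    (∀ x ∈ X, x ∈ A) ∧ (∀ x ∈ X, ∀ y ∈ X, x ≠ y → x - y ∉ B)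
  have hbdd : ∀ m, P m → m ≤ cov A ((1 / 2 : ℝ) • B) := by
    rintro m ⟨X, rfl, hXA, hXs⟩
    exact sep_card_le hA hhalf hBB hXA hXs
  have hP0 : P 0 := ⟨∅, rfl, by simp, by simp⟩
  obtain ⟨X, hXc, hXA, hXs⟩ : P (Nat.findGreatest P (cov A ((1 / 2 : ℝ) • B))) :=
    Nat.findGreatest_spec (Nat.zero_le _) hP0
  refine ⟨X, hXA, hXs, cov_le fun a ha => ?_⟩
  by_contra hcon
  push Not at hcon
  have haX : a ∉ X := fun h => by
    refine hcon a h ?_
    rw [sub_self]
    exact zero_mem hB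
  have hP1 : P (X.card + 1) := by
    refine ⟨insert a X, Finset.card_insert_of_notMem haX, ?_, ?_⟩
    · intro x hx
      rcases Finset.mem_insert.1 hx with rfl | hx
      · exact ha
      · exact hXA x hx
    · intro x hx y hy hxy
      rcases Finset.mem_insert.1 hx with hxa | hxX
      · rcases Finset.mem_insert.1 hy with hya | hyX
        · exact absurd (hxa.trans hya.symm) hxy
        · rw [hxa]
          exact hcon y hyX
      · rcases Finset.mem_insert.1 hy with hya | hyX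
        · intro h
          refine hcon x hxX ?_
          have := hB.symm _ h
          rwa [neg_sub, hya] at this
        · exact hXs x hxX y hyX hxy
  have h1 := Nat.le_findGreatest (hbdd _ hP1) hP1
  omega

/-- One translate of a symmetric body covers a symmetric body iff inclusion. -/
theorem subset_of_cov_eq_one (hA : SymBody A) (hB : SymBody B) (h : cov A B = 1) : A ⊆ B := by
  obtain ⟨S, hS, hS2⟩ := cov_spec hA.compact hB
  rw [h, Finset.card_eq_one] at hS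
  obtain ⟨s, rfl⟩ := hS
  intro a ha
  obtain ⟨s', hs', h1⟩ := hS2 a ha
  obtain ⟨s'', hs'', h2⟩ := hS2 (-a) (hA.symm a ha)
  rw [Finset.mem_singleton] at hs' hs''
  subst hs'
  rw [hs''] at h2
  have h3 := hB.convex h1 (hB.symm _ h2) (by norm_num : (0 : ℝ) ≤ 1 / 2)
    (by norm_num : (0 : ℝ) ≤ 1 / 2) (by norm_num)
  have e : (1 / 2 : ℝ) • (a - s') + (1 / 2 : ℝ) • -(-a - s') = a := by
    rw [← smul_add]
    have e1 : a - s' + -(-a - s') = (2 : ℝ) • a := by
      rw [two_smul]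
      abel
    rw [e1, smul_smul]
    norm_num
  rwa [e] at h3

theorem cov_eq_one_of_subset (hA : SymBody A) (hB : SymBody B) (h : A ⊆ B) : cov A B = 1 := by
  refine le_antisymm ?_ (one_le_cov hA.compact ⟨0, zero_mem hA⟩ hB)
  have := cov_le (A := A) (B := B) (S := {0}) fun a ha => ⟨0, Finset.mem_singleton_self _, by
    rw [sub_zero]; exact h ha⟩
  simpa using this

end P126
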