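import Mathlib

/-!
P126-POW: basic definitions for the power duality theorem of metric entropy.
-/

namespace P126

open Finset

/-- Relative entropy of two vectors on a finite type. -/
noncomputable def KL {Y : Type*} [Fintype Y] (p q : Y → ℝ) : ℝ :=
  ∑ y, p y * Real.log (p y / q y)

/-- Probability vector. -/
def IsProb {Y : Type*} [Fintype Y] (p : Y → ℝ) : Prop :=
  (∀ y, 0 ≤ p y) ∧ ∑ y, p y = 1

/-- Absolute continuity. -/
def AC {Y : Type*} (p q : Y → ℝ) : Prop := ∀ y, q y = 0 → p y = 0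

/-- The average of the kernel `lam` over the finite set `A`. -/
noncomputable def avg {ι Y : Type*} (A : Finset ι) (lam : ι → Y → ℝ) : Y → ℝ :=
  fun y => (∑ x ∈ A, lam x y) / (A.card : ℝ)

/-- Barycenter. -/
noncomputable def bary {Y E : Type*} [Fintype Y] [AddCommGroup E] [Module ℝ E]
    (w : Y → ℝ) (p : Y → E) : E := ∑ y, w y • p y

/-- Average information of the kernel `lam` on `A`. -/
noncomputable def info {ι Y : Type*} [Fintype Y] (A : Finset ι) (lam : ι → Y → ℝ) : ℝ :=
  (∑ x ∈ A, KL (lam x) (avg A lam)) / (A.card : ℝ)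

/-- There is no code of length `m`: points `z i` in `K`, functionals of norm at most one with
`f i (z j) + δ ≤ f i (z i)` for `i < j`. -/
def NoCode {E : Type*} [NormedAddCommGroup E] [NormedSpace ℝ E] (K : Set E) (δ : ℝ) (m : ℕ) :
    Prop :=
  ¬ ∃ (z : Fin m → E) (f : Fin m → (E →L[ℝ] ℝ)), (∀ i, z i ∈ K) ∧ (∀ i, ‖f i‖ ≤ 1) ∧
    ∀ i j, i < j → f i (z j) + δ ≤ f i (z i)

end P126
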