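import Mathlib

/-!
P126-POW: symmetric convex bodies, polars and covering numbers in `ℝ^n`.
-/

namespace P126

open Pointwise

/-- Origin-symmetric convex body in `ℝ^n`: compact, convex, with interior points, `K = -K`. -/
structure SymBody {n : ℕ} (K : Set (EuclideanSpace ℝ (Fin n))) : Prop where
  convex : Convex ℝ K
  compact : IsCompact K
  int : (interior K).Nonempty
  symm : ∀ x ∈ K, -x ∈ K

/-- The polar of `K`. -/
def polar {n : ℕ} (K : Set (EuclideanSpace ℝ (Fin n))) : Set (EuclideanSpace ℝ (Fin n)) :=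
  {y | ∀ x ∈ K, inner ℝ x y ≤ 1}

/-- The covering number: the least number of translates `s + B` whose union contains `A`. -/
noncomputable def cov {n : ℕ} (A B : Set (EuclideanSpace ℝ (Fin n))) : ℕ :=
  sInf {m : ℕ | ∃ S : Finset (EuclideanSpace ℝ (Fin n)),
    S.card = m ∧ A ⊆ ⋃ s ∈ S, s +ᵥ B}

end P126
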