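import Vale.Agent.Lib.P126.Defs

/-!
P126-POW module Greedy: greedy choice of a long code.

Let `A` be a finite set, `B ⊆ A` with `|A| ≤ 2 |B|`, and for every `x ∈ B` a point `z x`, a
functional `f x` and the set `A_x = {x' ∈ A : s x ≤ f x (z x')}`, with
`s x + δ ≤ f x (z x)`.  Suppose `|A_x| * (2 M + 2) < |A|`... (strictly: `(2M+2) |A_x| ≤ |A|` is also
enough with strictness below) for all `x ∈ B`.  Then there are `x_0, …, x_M ∈ B` with
`f x_i (z x_j) + δ ≤ f x_i (z x_i)` for `i < j`.

Proof.  Abstractly: `greedy_seq`.  `bad x : Finset ι` for `x ∈ B`, `(2M+2) |bad x| ≤ |A| ≤ 2 |B|` and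
`A` nonempty.  Then for every `m ≤ M + 1` there is `x : Fin m → ι`, all `x i ∈ B`, `x j ∉ bad (x i)`
for `i < j`.  Induction on `m` (append a new last element with `Fin.snoc`):
the union of the `m ≤ M` bad sets has at most `M |A| / (2M+2) < |A|/2 ≤ |B|` elements, so some element
of `B` is outside the union.
-/

namespace P126

open Finset

variable {ι : Type*} [DecidableEq ι]

theorem greedy_seq_aux (A B : Finset ι) (hA : A.Nonempty) (hB : A.card ≤ 2 * B.card)
    (bad : ι → Finset ι) (M : ℕ) (hbad : ∀ x ∈ B, (2 * M + 2) * (bad x).card ≤ A.card) (m : ℕ)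
    (hm : m ≤ M + 1) :
    ∃ x : Fin m → ι, (∀ i, x i ∈ B) ∧ ∀ i j, i < j → x j ∉ bad (x i) := by
  induction m with
  | zero => exact ⟨Fin.elim0, fun i => i.elim0, fun i => i.elim0⟩
  | succ m ih =>
    obtain ⟨x, hxB, hx⟩ := ih (by omega)
    have hA' : 0 < A.card := hA.card_pos
    obtain ⟨b, hb, hbU⟩ : ∃ b ∈ B, b ∉ Finset.univ.biUnion fun i : Fin m => bad (x i) := by
      by_contra hcon
      push Not at hcon
      have h1 : B.card ≤ (Finset.univ.biUnion fun i : Fin m => bad (x i)).card :=
        card_le_card hcon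
      have h2 : (Finset.univ.biUnion fun i : Fin m => bad (x i)).card ≤
          ∑ i : Fin m, (bad (x i)).card := card_biUnion_le
      have h3 : (2 * M + 2) * ∑ i : Fin m, (bad (x i)).card ≤ m * A.card := by
        rw [Finset.mul_sum]
        refine (Finset.sum_le_sum fun i _ => hbad (x i) (hxB i)).trans ?_
        simp
      have h4 : m * A.card ≤ M * A.card := Nat.mul_le_mul_right _ (by omega)
      have h5 : (2 * M + 2) * B.card ≤ M * A.card :=
        (Nat.mul_le_mul_left _ (h1.trans h2)).trans (h3.trans h4)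
      nlinarith
    refine ⟨Fin.snoc x b, fun i => ?_, fun i j hij => ?_⟩
    · refine Fin.lastCases ?_ (fun i => ?_) i
      · simpa using hb
      · simpa using hxB i
    · have hi : i ≠ Fin.last m := fun h => by
        subst h
        exact absurd hij (not_lt.2 (Fin.le_last j))
      obtain ⟨i', rfl⟩ := Fin.exists_castSucc_eq.2 hi
      rw [Fin.snoc_castSucc]
      by_cases hj : j = Fin.last m
      · subst hj
        rw [Fin.snoc_last]
        intro h
        exact hbU (Finset.mem_biUnion.2 ⟨i', Finset.mem_univ _, h⟩)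
      · obtain ⟨j', rfl⟩ := Fin.exists_castSucc_eq.2 hj
        rw [Fin.snoc_castSucc]
        exact hx i' j' (by simpa using hij)

theorem greedy_seq (A B : Finset ι) (hA : A.Nonempty) (hB : A.card ≤ 2 * B.card)
    (bad : ι → Finset ι) (M : ℕ) (hbad : ∀ x ∈ B, (2 * M + 2) * (bad x).card ≤ A.card) :
    ∃ x : Fin (M + 1) → ι, (∀ i, x i ∈ B) ∧ ∀ i j, i < j → x j ∉ bad (x i) :=
  greedy_seq_aux A B hA hB bad M hbad (M + 1) le_rfl

end P126
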