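import Vale.Agent.Lib.P126.KLbasic

/-!
P126-POW module Pinsker: if the relative entropy is small, the barycenters are close.

Proof.  Scalar version `mean_close`: `h : Y → ℝ`, `|h y| ≤ R`, `KL ω π ≤ δ`, `0 < δ ≤ 1`.
Put `m = ∑ π y * h y`, `|h y - m| ≤ 2 R`, `t = √δ / (2 R)`, so `t * |h y - m| ≤ √δ ≤ 1`.  DV with
`g y = t * (h y - m)`:  `t * (∑ ω h - m) ≤ KL ω π + log (∑ π y * exp (g y))`.  As
`exp u ≤ 1 + u + u^2` for `|u| ≤ 1` and `∑ π g = 0`, `∑ π exp g ≤ 1 + (2 R t)^2 = 1 + δ`, so the log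
is `≤ δ`.  Hence `∑ ω h - m ≤ 2 δ / t = 4 R √δ`.
Vector version: `v = bary ω p - bary π p`; take `f` with `‖f‖ ≤ 1`, `f v = ‖v‖`
(`exists_dual_vector''`) and use the scalar version with `h = f ∘ p`.
-/

namespace P126

open Finset

variable {Y : Type*} [Fintype Y]

theorem mean_close {w π : Y → ℝ} (hw : IsProb w) (hπ : IsProb π) (hac : AC w π) {R δ : ℝ}
    (hR : 0 < R) (hδ : 0 < δ) (hδ1 : δ ≤ 1) (hKL : KL w π ≤ δ) (h : Y → ℝ)
    (hb : ∀ y, |h y| ≤ R) :
    ∑ y, w y * h y - ∑ y, π y * h y ≤ 4 * R * Real.sqrt δ := by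
  set m := ∑ y, π y * h y with hm
  have hsd : 0 < Real.sqrt δ := Real.sqrt_pos.2 hδ
  have hsd2 : Real.sqrt δ * Real.sqrt δ = δ := Real.mul_self_sqrt hδ.le
  have hsd1 : Real.sqrt δ ≤ 1 := Real.sqrt_le_one.2 hδ1
  set t := Real.sqrt δ / (2 * R) with ht
  have htpos : 0 < t := by positivity
  have hmR : |m| ≤ R := by
    rw [hm]
    calc |∑ y, π y * h y| ≤ ∑ y, |π y * h y| := Finset.abs_sum_le_sum_abs _ _
      _ ≤ ∑ y, π y * R := by
          apply Finset.sum_le_sum
          intro y _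
          rw [abs_mul, abs_of_nonneg (hπ.1 y)]
          exact mul_le_mul_of_nonneg_left (hb y) (hπ.1 y)
      _ = R := by rw [← Finset.sum_mul, hπ.2, one_mul]
  have hdev : ∀ y, |h y - m| ≤ 2 * R := by
    intro y
    calc |h y - m| ≤ |h y| + |m| := abs_sub _ _
      _ ≤ 2 * R := by linarith [hb y]
  have hg : ∀ y, |t * (h y - m)| ≤ Real.sqrt δ := by
    intro y
    rw [abs_mul, abs_of_pos htpos]
    calc t * |h y - m| ≤ t * (2 * R) := mul_le_mul_of_nonneg_left (hdev y) htpos.le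
      _ = Real.sqrt δ := by rw [ht]; field_simp
  have hexp : ∀ y, Real.exp (t * (h y - m)) ≤ 1 + t * (h y - m) + δ := by
    intro y
    have h1 := Real.abs_exp_sub_one_sub_id_le ((hg y).trans hsd1)
    have h2 := (abs_le.1 h1).2
    have h3 : (t * (h y - m)) ^ 2 ≤ δ := by
      rw [← sq_abs, ← hsd2, ← sq]
      exact pow_le_pow_left₀ (abs_nonneg _) (hg y) 2
    linarith
  have hsum : ∑ y, π y * Real.exp (t * (h y - m)) ≤ 1 + δ := by
    calc ∑ y, π y * Real.exp (t * (h y - m)) ≤ ∑ y, π y * (1 + t * (h y - m) + δ) := by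
          apply Finset.sum_le_sum
          intro y _
          exact mul_le_mul_of_nonneg_left (hexp y) (hπ.1 y)
      _ = ∑ y, ((1 + δ - t * m) * π y + t * (π y * h y)) := by
          apply Finset.sum_congr rfl
          intro y _
          ring
      _ = 1 + δ := by
          rw [Finset.sum_add_distrib, ← Finset.mul_sum, ← Finset.mul_sum, hπ.2, ← hm]
          ring
  have hpos : 0 < ∑ y, π y * Real.exp (t * (h y - m)) := by
    have hne : ∃ y, 0 < π y := by
      by_contra hcon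
      push Not at hcon
      have : ∑ y, π y ≤ 0 := Finset.sum_nonpos fun y _ => hcon y
      rw [hπ.2] at this
      linarith
    obtain ⟨y0, hy0⟩ := hne
    exact Finset.sum_pos' (fun y _ => mul_nonneg (hπ.1 y) (Real.exp_pos _).le)
      ⟨y0, Finset.mem_univ _, mul_pos hy0 (Real.exp_pos _)⟩
  have hlog : Real.log (∑ y, π y * Real.exp (t * (h y - m))) ≤ δ := by
    have := Real.log_le_sub_one_of_pos hpos
    linarith
  have hdv := DV hw hπ hac (fun y => t * (h y - m))
  have hlin : ∑ y, w y * (t * (h y - m)) = t * (∑ y, w y * h y - m) := by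
    calc ∑ y, w y * (t * (h y - m)) = ∑ y, (t * (w y * h y) - t * m * w y) := by
          apply Finset.sum_congr rfl
          intro y _
          ring
      _ = t * (∑ y, w y * h y - m) := by
          rw [Finset.sum_sub_distrib, ← Finset.mul_sum, ← Finset.mul_sum, hw.2]
          ring
  rw [hlin] at hdv
  have h1 : t * (∑ y, w y * h y - m) ≤ 2 * δ := by linarith
  have h2 : t * (∑ y, w y * h y - m) ≤ t * (4 * R * Real.sqrt δ) := by
    have : t * (4 * R * Real.sqrt δ) = 2 * δ := by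
      rw [ht]
      field_simp
      nlinarith [hsd2]
    linarith
  exact le_of_mul_le_mul_left h2 htpos

theorem bary_close {E : Type*} [NormedAddCommGroup E] [NormedSpace ℝ E] {w π : Y → ℝ}
    (hw : IsProb w) (hπ : IsProb π) (hac : AC w π) {R δ : ℝ} (hR : 0 < R) (hδ : 0 < δ)
    (hδ1 : δ ≤ 1) (hKL : KL w π ≤ δ) (p : Y → E) (hb : ∀ y, ‖p y‖ ≤ R) :
    ‖bary w p - bary π p‖ ≤ 4 * R * Real.sqrt δ := by
  obtain ⟨f, hf1, hf2⟩ := exists_dual_vector'' ℝ (bary w p - bary π p)
  have hf2' : f (bary w p - bary π p) = ‖bary w p - bary π p‖ := by simpa using hf2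
  rw [← hf2']
  have h := mean_close hw hπ hac hR hδ hδ1 hKL (fun y => f (p y)) (fun y => by
    calc |f (p y)| = ‖f (p y)‖ := rfl
      _ ≤ ‖f‖ * ‖p y‖ := f.le_opNorm _
      _ ≤ 1 * R := by
          apply mul_le_mul hf1 (hb y) (norm_nonneg _) zero_le_one
      _ = R := one_mul R)
  have h1 : f (bary w p - bary π p) = ∑ y, w y * f (p y) - ∑ y, π y * f (p y) := by
    unfold bary
    rw [map_sub, map_sum, map_sum]
    simp
  rw [h1]
  exact h

end P126
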