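import Vale.Agent.Lib.P126.Stage
import Vale.Agent.Lib.P126.Pinsker

/-!
P126-POW module Iterate: Proposition A (abstract form).

`K` convex in a finite dimensional normed space, `‖x‖ ≤ 4` on `K`, `X ⊆ K` finite, nonempty, pairwise
distances `> 1`; `η = 1/(4 T)`, no code of length `M+1` in `K` for `δ = η/2`.

Proof.  Start: index type `Y = ι = {x // x ∈ X}` (so `X' = univ`), `p = pos = Subtype.val`,
`lam x = Pi.single x 1`, `ref` uniform: `KL = log |X|` (`KL_dirac_unif`), error `0`
(`bary_dirac`).  If `|X| = 1` trivial; else `Δ_0 = log |X| > 0`.  Iterate `stage` `T` times (induction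
on `t ≤ T`): `X_t` nonempty, kernel with error `≤ t η`, relative entropy `≤ log|X| / c^t`, and
`log |X| ≤ log |X_t| + t (c P + log 2)`, `P = 2 + log (2M+2)`.
For `t = T`: error `≤ 1/4` and `KL ≤ log|X| / c^T ≤ 1/4096` (hypothesis `hc`), so by `bary_close` with
`R = 4`, `δ = 1/4096`: `‖z_x - z_ref‖ ≤ 16/64 = 1/4`.  Hence for `x, x' ∈ X_T`,
`‖x - x'‖ ≤ 1/4 + 1/4 + 1/4 + 1/4 = 1`, so `x = x'` and `|X_T| = 1`, `log |X_T| = 0`.
-/

namespace P126

open Finset

theorem iterate {E : Type*} [NormedAddCommGroup E] [NormedSpace ℝ E] [FiniteDimensional ℝ E]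
    (K : Set E) (hK : Convex ℝ K) (hb : ∀ x ∈ K, ‖x‖ ≤ 4) (X : Finset E) (hXK : ∀ x ∈ X, x ∈ K)
    (hX : X.Nonempty) (hsep : ∀ x ∈ X, ∀ y ∈ X, x ≠ y → 1 < ‖x - y‖)
    (T : ℕ) (hT : 1 ≤ T) {c : ℝ} (hc0 : 0 < c) (hc : Real.log X.card / c ^ T ≤ 1 / 4096)
    (M : ℕ) (hM : NoCode K (1 / (8 * T)) (M + 1)) :
    Real.log X.card ≤ T * (c * (2 + Real.log (2 * M + 2)) + Real.log 2) := by
  classical
  have hP : 0 ≤ Real.log (2 * M + 2) := by
    apply Real.log_nonneg
    have : (0 : ℝ) ≤ M := Nat.cast_nonneg M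
    linarith
  have hl2 : 0 < Real.log 2 := Real.log_pos (by norm_num)
  have hT0 : (0 : ℝ) < T := by exact_mod_cast hT
  by_cases h1 : X.card = 1
  · rw [h1, Nat.cast_one, Real.log_one]
    positivity
  have hcard : 2 ≤ X.card := by
    have := hX.card_pos
    omega
  have hΔ : 0 < Real.log X.card := Real.log_pos (by exact_mod_cast hcard)
  have hne : Nonempty {x // x ∈ X} := ⟨⟨hX.choose, hX.choose_spec⟩⟩
  set η : ℝ := 1 / (4 * T) with hη
  have hη0 : 0 < η := by positivity
  have hηM : NoCode K (η / 2) (M + 1) := by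
    have : η / 2 = 1 / (8 * T) := by
      rw [hη]
      field_simp
      norm_num
    rwa [this]
  have hfc : (Fintype.card {x // x ∈ X} : ℕ) = X.card := Fintype.card_coe X
  have key : ∀ t : ℕ, ∃ (X' : Finset {x // x ∈ X}) (lam' : {x // x ∈ X} → {x // x ∈ X} → ℝ)
      (ref' : {x // x ∈ X} → ℝ), X'.Nonempty ∧
      Real.log X.card ≤ Real.log X'.card +
        t * (c * (2 + Real.log (2 * M + 2)) + Real.log 2) ∧
      IsProb ref' ∧ (∀ x ∈ X', IsProb (lam' x)) ∧ (∀ x ∈ X', AC (lam' x) ref') ∧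
      (∀ x ∈ X', KL (lam' x) ref' ≤ Real.log X.card / c ^ t) ∧
      (∀ x ∈ X', ‖(x : E) - bary (lam' x) Subtype.val‖ ≤ t * η) := by
    intro t
    induction t with
    | zero =>
      refine ⟨Finset.univ, fun x => Pi.single x (1 : ℝ),
        fun _ => 1 / (Fintype.card {x // x ∈ X} : ℝ), Finset.univ_nonempty, ?_, unif_isProb,
        fun x _ => dirac_isProb x, ?_, ?_, ?_⟩
      · rw [Finset.card_univ, hfc]
        simp
      · intro x _ y hy
        exfalso
        have hpos : (0 : ℝ) < Fintype.card {x // x ∈ X} := by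
          exact_mod_cast Fintype.card_pos
        have : (1 : ℝ) / (Fintype.card {x // x ∈ X} : ℝ) ≠ 0 := by positivity
        exact this hy
      · intro x _
        rw [KL_dirac_unif, hfc, pow_zero, div_one]
      · intro x _
        rw [bary_dirac, sub_self, norm_zero]
        simp
    | succ t ih =>
      obtain ⟨X1, lam1, ref1, hne1, hlog1, href1, hlam1, hac1, hKL1, herr1⟩ := ih
      obtain ⟨X2, lam2, ref2, hsub, hne2, hlog2, href2, hlam2, hac2, hKL2, herr2⟩ :=
        stage K hK (Subtype.val : {x // x ∈ X} → E) (fun y => hXK y.1 y.2) X1 hne1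
          (fun x => (x : E)) lam1 hlam1 ref1 href1 hac1 (Δ := Real.log X.card / c ^ t)
          (err := t * η) (η := η) (c := c) (by positivity) hη0 hc0 (by positivity) hKL1 herr1
          M hηM
      refine ⟨X2, lam2, ref2, hne2, ?_, href2, hlam2, hac2, ?_, ?_⟩
      · push_cast
        linarith
      · intro x hx
        refine (hKL2 x hx).trans (le_of_eq ?_)
        rw [pow_succ]
        field_simp
      · intro x hx
        refine (herr2 x hx).trans (le_of_eq ?_)
        push_cast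
        ring
  obtain ⟨X', lam', ref', hne', hlog, href, hlam, hac, hKL, herr⟩ := key T
  have hTη : (T : ℝ) * η = 1 / 4 := by
    rw [hη]
    field_simp
  have hclose : ∀ x ∈ X', ‖(x : E) - bary ref' Subtype.val‖ ≤ 1 / 2 := by
    intro x hx
    have h2 := bary_close (hlam x hx) href (hac x hx) (R := 4) (δ := 1 / 4096) (by norm_num)
      (by norm_num) (by norm_num) ((hKL x hx).trans hc) (Subtype.val : {x // x ∈ X} → E)
      (fun y => hb _ (hXK y.1 y.2))
    have h3 : Real.sqrt (1 / 4096) = 1 / 64 := by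
      rw [show (1 / 4096 : ℝ) = (1 / 64) ^ 2 by norm_num]
      exact Real.sqrt_sq (by norm_num)
    rw [h3] at h2
    have h4 := herr x hx
    rw [hTη] at h4
    calc ‖(x : E) - bary ref' Subtype.val‖
        = ‖((x : E) - bary (lam' x) Subtype.val) +
            (bary (lam' x) Subtype.val - bary ref' Subtype.val)‖ := by
          congr 1
          abel
      _ ≤ _ := norm_add_le _ _
      _ ≤ 1 / 2 := by linarith
  have hcard1 : X'.card ≤ 1 := by
    rw [Finset.card_le_one]
    intro x hx y hy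
    by_contra hxy
    have h5 := hsep x.1 x.2 y.1 y.2 (fun h => hxy (Subtype.ext h))
    have h6 := hclose x hx
    have h7 := hclose y hy
    have h8 : ‖(x : E) - y‖ ≤ ‖(x : E) - bary ref' Subtype.val‖ +
        ‖(y : E) - bary ref' Subtype.val‖ := by
      calc ‖(x : E) - y‖ = ‖((x : E) - bary ref' Subtype.val) -
            ((y : E) - bary ref' Subtype.val)‖ := by
            congr 1
            abel
        _ ≤ _ := norm_sub_le _ _
    linarith
  have hcard2 : X'.card = 1 := le_antisymm hcard1 hne'.card_pos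
  rw [hcard2, Nat.cast_one, Real.log_one, zero_add] at hlog
  exact hlog

/-- The optimised form: with `c = max 2 ((4096 log |X|)^(1/T))`. -/
theorem iterate_pow (T : ℕ) (hT : 2 ≤ T) : ∃ C : ℝ, 1 ≤ C ∧
    ∀ {E : Type} [NormedAddCommGroup E] [NormedSpace ℝ E] [FiniteDimensional ℝ E]
    (K : Set E) (_ : Convex ℝ K) (_ : ∀ x ∈ K, ‖x‖ ≤ 4) (X : Finset E) (_ : ∀ x ∈ X, x ∈ K)
    (_ : X.Nonempty) (_ : ∀ x ∈ X, ∀ y ∈ X, x ≠ y → 1 < ‖x - y‖)
    (M : ℕ) (_ : NoCode K (1 / (8 * T)) (M + 1)),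
    Real.log X.card ≤ C * (2 + Real.log (2 * M + 2)) ^ ((T : ℝ) / ((T : ℝ) - 1)) := by
  have hT2 : (2 : ℝ) ≤ T := by exact_mod_cast hT
  have hT1 : (0 : ℝ) < (T : ℝ) - 1 := by linarith
  set q : ℝ := (T : ℝ) / ((T : ℝ) - 1) with hq
  have hq1 : 1 ≤ q := by
    rw [hq, le_div_iff₀ hT1]
    linarith
  have hB : (1 : ℝ) ≤ 8192 * T := by linarith
  refine ⟨(8192 * T) ^ q, Real.one_le_rpow hB (by linarith), ?_⟩
  intro E _ _ _ K hK hb X hXK hX hsep M hM
  have hP0 : 0 ≤ Real.log (2 * M + 2) := by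
    apply Real.log_nonneg
    have : (0 : ℝ) ≤ M := Nat.cast_nonneg M
    linarith
  set P : ℝ := 2 + Real.log (2 * M + 2) with hP
  have hP2 : 2 ≤ P := by linarith
  have hl2 : Real.log 2 ≤ 1 := by
    have := Real.log_two_lt_d9
    linarith
  set L : ℝ := Real.log X.card with hL
  have hbase : 1 ≤ 8192 * T * P := by nlinarith
  have hrw : (8192 * (T : ℝ)) ^ q * P ^ q = (8192 * T * P) ^ q := by
    rw [← Real.mul_rpow (by linarith) (by linarith)]
  rw [hrw]
  have hup : 8192 * T * P ≤ (8192 * T * P) ^ q := by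
    calc 8192 * T * P = (8192 * T * P) ^ (1 : ℝ) := (Real.rpow_one _).symm
      _ ≤ _ := Real.rpow_le_rpow_of_exponent_le hbase hq1
  by_cases hc : 4096 * L ≤ 2 ^ T
  · have h1 := iterate K hK hb X hXK hX hsep T (by omega) (c := 2) (by norm_num) (by
      rw [div_le_iff₀ (by positivity)]
      linarith) M hM
    refine le_trans ?_ hup
    refine h1.trans ?_
    rw [← hP]
    nlinarith
  · rw [not_le] at hc
    have hL0 : 0 < 4096 * L := lt_trans (by positivity) hc
    have hTne : T ≠ 0 := by omega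
    set c : ℝ := (4096 * L) ^ ((T : ℝ)⁻¹) with hcdef
    have hcT : c ^ T = 4096 * L := Real.rpow_inv_natCast_pow hL0.le hTne
    have hc0 : 0 < c := Real.rpow_pos_of_pos hL0 _
    have hc2 : 2 ≤ c := by
      have : (2 : ℝ) ^ T < c ^ T := by rwa [hcT]
      exact (lt_of_pow_lt_pow_left₀ T hc0.le this).le
    have h1 := iterate K hK hb X hXK hX hsep T (by omega) (c := c) hc0 (by
      rw [hcT, div_le_iff₀ hL0]
      linarith) M hM
    rw [← hP, ← hL] at h1
    have h2 : L ≤ 2 * T * P * c := by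
      refine h1.trans ?_
      have h3 : Real.log 2 ≤ c * P := by nlinarith
      nlinarith
    have h4 : c ^ (T - 1) ≤ 8192 * T * P := by
      have h5 : c ^ T = c ^ (T - 1) * c := by
        rw [← pow_succ]
        congr 1
        omega
      have h6 : c ^ (T - 1) * c ≤ (8192 * T * P) * c := by
        rw [← h5, hcT]
        nlinarith
      exact le_of_mul_le_mul_right h6 hc0
    have h7 : c ≤ (8192 * T * P) ^ (((T - 1 : ℕ) : ℝ)⁻¹) := by
      calc c = (c ^ (T - 1)) ^ (((T - 1 : ℕ) : ℝ)⁻¹) :=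
            (Real.pow_rpow_inv_natCast hc0.le (by omega)).symm
        _ ≤ _ := Real.rpow_le_rpow (by positivity) h4 (by positivity)
    have h8 : ((T - 1 : ℕ) : ℝ) = (T : ℝ) - 1 := by
      rw [Nat.cast_sub (by omega), Nat.cast_one]
    rw [h8] at h7
    have hq' : q = 1 + ((T : ℝ) - 1)⁻¹ := by
      rw [hq]
      field_simp
      ring
    rw [hq', Real.rpow_add (by linarith), Real.rpow_one]
    refine h2.trans ?_
    have h9 : 0 ≤ (8192 * T * P) ^ (((T : ℝ) - 1)⁻¹) := by positivity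
    have h10 : 2 * T * P * c ≤ 2 * T * P * (8192 * T * P) ^ (((T : ℝ) - 1)⁻¹) :=
      mul_le_mul_of_nonneg_left h7 (by positivity)
    refine h10.trans (mul_le_mul_of_nonneg_right ?_ h9)
    nlinarith

end P126
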