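import Vale.Agent.Lib.P126.Defs

/-!
P126-POW module KLbasic: nonnegativity of relative entropy and the Donsker-Varadhan inequality.

Proof of `DV`.  Put `Z = ∑ q y * exp (g y) > 0` (some `q y > 0` because `∑ q = 1`).  For every `y`
with `p y > 0` we have `q y > 0` and with `u = q y * exp (g y) / (Z * p y)`, `log u ≤ u - 1`, so
`p y * (g y - log Z - log (p y / q y)) ≤ q y * exp (g y) / Z - p y`; for `p y = 0` the left side is
`0` and the right side is `≥ 0`.  Sum over `y`: the right side sums to `1 - 1 = 0`.
`KL_nonneg` is `DV` with `g = 0`.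
-/

namespace P126

open Finset

variable {Y : Type*} [Fintype Y]

/-- The partition function is positive. -/
theorem DV_Z_pos {q : Y → ℝ} (hq : IsProb q) (g : Y → ℝ) : 0 < ∑ y, q y * Real.exp (g y) := by
  have h0 : ∀ y ∈ (univ : Finset Y), 0 ≤ q y * Real.exp (g y) := fun y _ =>
    mul_nonneg (hq.1 y) (Real.exp_pos _).le
  rcases (Finset.sum_nonneg h0).lt_or_eq with h | h
  · exact h
  · exfalso
    have h1 := (Finset.sum_eq_zero_iff_of_nonneg h0).1 h.symm
    have h2 : ∑ y, q y = 0 := by
      apply Finset.sum_eq_zero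
      intro y hy
      exact (mul_eq_zero.1 (h1 y hy)).resolve_right (Real.exp_pos _).ne'
    have h3 := hq.2
    rw [h2] at h3
    exact zero_ne_one h3

theorem DV {p q : Y → ℝ} (hp : IsProb p) (hq : IsProb q) (h : AC p q) (g : Y → ℝ) :
    ∑ y, p y * g y - Real.log (∑ y, q y * Real.exp (g y)) ≤ KL p q := by
  set Z : ℝ := ∑ y, q y * Real.exp (g y) with hZ
  have hZpos : 0 < Z := DV_Z_pos hq g
  have hpt : ∀ y, p y * g y - p y * Real.log Z - p y * Real.log (p y / q y) ≤
      q y * Real.exp (g y) / Z - p y := by
    intro y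
    rcases (hp.1 y).lt_or_eq with hpy | hpy
    · have hqy : 0 < q y := by
        rcases (hq.1 y).lt_or_eq with h1 | h1
        · exact h1
        · have h2 := h y h1.symm
          rw [h2] at hpy
          exact absurd hpy (lt_irrefl _)
      have hu : 0 < q y * Real.exp (g y) / (Z * p y) := by positivity
      have h1 := Real.log_le_sub_one_of_pos hu
      have h2 : Real.log (q y * Real.exp (g y) / (Z * p y)) =
          g y - Real.log Z - Real.log (p y / q y) := by
        rw [Real.log_div (by positivity) (by positivity), Real.log_mul hqy.ne'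
          (Real.exp_pos _).ne', Real.log_exp, Real.log_mul hZpos.ne' hpy.ne',
          Real.log_div hpy.ne' hqy.ne']
        ring
      rw [h2] at h1
      have h3 := mul_le_mul_of_nonneg_left h1 hpy.le
      have h4 : p y * (q y * Real.exp (g y) / (Z * p y) - 1) =
          q y * Real.exp (g y) / Z - p y := by
        have h5 := hpy.ne'
        have h6 := hZpos.ne'
        field_simp
      rw [h4] at h3
      linarith [h3]
    · rw [← hpy]
      have h1 : 0 ≤ q y * Real.exp (g y) / Z :=
        div_nonneg (mul_nonneg (hq.1 y) (Real.exp_pos _).le) hZpos.le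
      simpa using h1
  have hsum := Finset.sum_le_sum (fun y (_ : y ∈ (univ : Finset Y)) => hpt y)
  rw [Finset.sum_sub_distrib, Finset.sum_sub_distrib, Finset.sum_sub_distrib,
    ← Finset.sum_mul, ← Finset.sum_div, hp.2, ← hZ, div_self hZpos.ne', one_mul, sub_self] at hsum
  unfold KL
  linarith

theorem KL_nonneg {p q : Y → ℝ} (hp : IsProb p) (hq : IsProb q) (h : AC p q) :
    0 ≤ KL p q := by
  have h1 := DV hp hq h (fun _ => 0)
  simpa [hq.2] using h1

end P126
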