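import Vale.Agent.Lib.P126.Defs

/-!
P126-POW module KLcomp: averages of kernels and the compensation identity.

`avg_isProb`, `ac_avg`, `avg_ac`: immediate (all terms are nonnegative).

Proof of `compensation`.  For each `y`:
`∑ x ∈ A, lam x y * log (lam x y / q y)
  = ∑ x ∈ A, lam x y * log (lam x y / m y) + (∑ x ∈ A, lam x y) * log (m y / q y)`
with `m = avg A lam`, because for `lam x y > 0` we have `m y > 0`, `q y > 0` and
`log (lam/q) = log (lam/m) + log (m/q)`; if `lam x y = 0` all terms vanish.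
And `∑ x ∈ A, lam x y = A.card * m y`.  Sum over `y` and exchange the sums.
(For `KL_dirac_unif`: only the term `y = x` is nonzero, it is `1 * log (1 / (1/N)) = log N`.)
-/

namespace P126

open Finset

variable {ι Y : Type*} [Fintype Y]

theorem avg_isProb {A : Finset ι} {lam : ι → Y → ℝ} (hA : A.Nonempty)
    (h : ∀ x ∈ A, IsProb (lam x)) : IsProb (avg A lam) := by
  have hc : (0 : ℝ) < A.card := by exact_mod_cast hA.card_pos
  refine ⟨fun y => ?_, ?_⟩
  · exact div_nonneg (Finset.sum_nonneg fun x hx => (h x hx).1 y) hc.le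
  · unfold avg
    rw [← Finset.sum_div, Finset.sum_comm, Finset.sum_congr rfl fun x hx => (h x hx).2]
    simp only [Finset.sum_const, nsmul_eq_mul, mul_one]
    exact div_self hc.ne'

theorem ac_avg {A : Finset ι} {lam : ι → Y → ℝ} (h : ∀ x ∈ A, IsProb (lam x)) {x : ι}
    (hx : x ∈ A) : AC (lam x) (avg A lam) := by
  intro y hy
  have hc : (0 : ℝ) < A.card := by exact_mod_cast Finset.card_pos.mpr ⟨x, hx⟩
  unfold avg at hy
  have h0 : ∑ x ∈ A, lam x y = 0 := by
    rcases div_eq_zero_iff.mp hy with h1 | h1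
    · exact h1
    · exact absurd h1 hc.ne'
  exact (Finset.sum_eq_zero_iff_of_nonneg fun x hx => (h x hx).1 y).mp h0 x hx

theorem avg_ac {A : Finset ι} {lam : ι → Y → ℝ} {q : Y → ℝ}
    (h : ∀ x ∈ A, AC (lam x) q) : AC (avg A lam) q := by
  intro y hy
  unfold avg
  rw [Finset.sum_eq_zero fun x hx => h x hx y hy, zero_div]

theorem compensation {A : Finset ι} {lam : ι → Y → ℝ} {q : Y → ℝ} (hA : A.Nonempty)
    (h : ∀ x ∈ A, IsProb (lam x)) (hq : IsProb q) (hac : ∀ x ∈ A, AC (lam x) q) :
    ∑ x ∈ A, KL (lam x) q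
      = ∑ x ∈ A, KL (lam x) (avg A lam) + (A.card : ℝ) * KL (avg A lam) q := by
  have hc : (0 : ℝ) < A.card := by exact_mod_cast hA.card_pos
  unfold KL
  rw [Finset.sum_comm, Finset.sum_comm (s := A) (t := Finset.univ)
    (f := fun x y => lam x y * Real.log (lam x y / avg A lam y)), Finset.mul_sum,
    ← Finset.sum_add_distrib]
  refine Finset.sum_congr rfl fun y _ => ?_
  have hsum : (A.card : ℝ) * avg A lam y = ∑ x ∈ A, lam x y := by
    unfold avg
    field_simp
  rw [← mul_assoc, hsum, Finset.sum_mul, ← Finset.sum_add_distrib]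
  refine Finset.sum_congr rfl fun x hx => ?_
  by_cases h0 : lam x y = 0
  · simp [h0]
  · have hm : avg A lam y ≠ 0 := fun hm => h0 (ac_avg h hx y hm)
    have hqy : q y ≠ 0 := fun hq0 => h0 (hac x hx y hq0)
    rw [Real.log_div h0 hqy, Real.log_div h0 hm, Real.log_div hm hqy]
    ring

theorem unif_isProb [Nonempty Y] : IsProb (fun _ : Y => 1 / (Fintype.card Y : ℝ)) := by
  have hc : (0 : ℝ) < Fintype.card Y := by exact_mod_cast Fintype.card_pos
  refine ⟨fun _ => by positivity, ?_⟩
  simp only [Finset.sum_const, Finset.card_univ, nsmul_eq_mul]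
  field_simp

theorem dirac_isProb [DecidableEq Y] (x : Y) : IsProb (Pi.single x (1 : ℝ) : Y → ℝ) := by
  refine ⟨fun y => ?_, ?_⟩
  · by_cases h : y = x
    · subst h
      simp
    · simp [Pi.single_eq_of_ne h]
  · simp [Finset.sum_pi_single']

theorem KL_dirac_unif [DecidableEq Y] (x : Y) :
    KL (Pi.single x (1 : ℝ) : Y → ℝ) (fun _ : Y => 1 / (Fintype.card Y : ℝ))
      = Real.log (Fintype.card Y) := by
  unfold KL
  rw [Finset.sum_eq_single x]
  · simp
  · intro y _ hy
    simp [Pi.single_eq_of_ne hy]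
  · intro h
    exact absurd (Finset.mem_univ x) h

theorem bary_dirac {E : Type*} [AddCommGroup E] [Module ℝ E] [DecidableEq Y] (x : Y)
    (p : Y → E) : bary (Pi.single x (1 : ℝ) : Y → ℝ) p = p x := by
  unfold bary
  rw [Finset.sum_eq_single x]
  · simp
  · intro y _ hy
    simp [Pi.single_eq_of_ne hy]
  · intro h
    exact absurd (Finset.mem_univ x) h

end P126
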