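import Vale.Agent.Lib.P126.KLbasic
import Vale.Agent.Lib.P126.KLcomp

/-!
P126-POW module MaxSet: the maximal subset.

`J A = log |A| - β * info A lam` for nonempty `A ⊆ X`.  Choose `A` maximizing `J`
(`Finset.exists_max_image` on the nonempty members of `X.powerset`).

(1) `J A ≥ J X`, `info A ≥ 0` (KL_nonneg), and `info X ≤ Δ` because by `compensation`
`|X| info X = ∑ KL (lam x) ref - |X| KL (avg X lam) ref ≤ |X| Δ`.
So `log |X| - β Δ ≤ log |X| - β info X ≤ log |A| - β info A ≤ log |A|`.

(2) `KL (lam x) (avg A lam) ≤ info A lam + 1/β` for `x ∈ A`.  If `|A| = 1`, then `avg A lam = lam x`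
and both KL and info are `0` (or: then info = KL of that x, trivially fine).  If `m = |A| ≥ 2`, put
`A' = A.erase x`.  By `compensation` on `A'` with `q = avg A lam` and `KL_nonneg`,
`(m-1) info A' ≤ ∑_{A'} KL (lam x') (avg A lam) = m info A - D`, `D = KL (lam x) (avg A lam)`.
Maximality `J A' ≤ J A`: `β (info A - info A') ≤ log (m/(m-1)) ≤ 1/(m-1)`.  And
`info A - info A' ≥ (D - info A)/(m-1)`.  So `β (D - info A) ≤ 1`.

(3) for nonempty `B ⊆ A`: if `d ≤ KL (avg B lam) (avg A lam)`, then by `compensation` on `B`
`info B = (∑_B KL (lam x)(avg A lam))/|B| - KL (avg B lam) (avg A lam) ≤ info A + 1/β - d`, so by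
maximality `log |A| - log |B| ≥ β (info A - info B) ≥ β d - 1`.
-/

namespace P126

open Finset

variable {ι Y : Type*} [Fintype Y] [DecidableEq ι]

/-- the objective function. -/
noncomputable def JJ (lam : ι → Y → ℝ) (β : ℝ) (A : Finset ι) : ℝ :=
  Real.log A.card - β * info A lam

omit [DecidableEq ι] in
theorem info_nonneg {A : Finset ι} {lam : ι → Y → ℝ} (hA : A.Nonempty)
    (h : ∀ x ∈ A, IsProb (lam x)) : 0 ≤ info A lam := by
  unfold info
  apply div_nonneg _ (Nat.cast_nonneg _)
  exact Finset.sum_nonneg fun x hx => KL_nonneg (h x hx) (avg_isProb hA h) (ac_avg h hx)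

omit [DecidableEq ι] in
theorem card_mul_info {A : Finset ι} {lam : ι → Y → ℝ} (hA : A.Nonempty) :
    (A.card : ℝ) * info A lam = ∑ x ∈ A, KL (lam x) (avg A lam) := by
  have : (A.card : ℝ) ≠ 0 := by
    have := hA.card_pos
    positivity
  unfold info
  field_simp

omit [DecidableEq ι] in
theorem info_le_of_KL_le {A : Finset ι} {lam : ι → Y → ℝ} {q : Y → ℝ} (hA : A.Nonempty)
    (h : ∀ x ∈ A, IsProb (lam x)) (hq : IsProb q) (hac : ∀ x ∈ A, AC (lam x) q) {c : ℝ}
    (hc : ∀ x ∈ A, KL (lam x) q ≤ c) : info A lam + KL (avg A lam) q ≤ c := by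
  have hpos : (0 : ℝ) < A.card := by exact_mod_cast hA.card_pos
  have h1 := compensation hA h hq hac
  rw [← card_mul_info hA] at h1
  have h2 : ∑ x ∈ A, KL (lam x) q ≤ (A.card : ℝ) * c := by
    have := Finset.sum_le_card_nsmul A (fun x => KL (lam x) q) c hc
    simpa [nsmul_eq_mul] using this
  have h3 : (A.card : ℝ) * (info A lam + KL (avg A lam) q) ≤ A.card * c := by linarith
  exact le_of_mul_le_mul_left h3 hpos

theorem log_step {m : ℕ} (hm : 2 ≤ m) :
    ((m : ℝ) - 1) * (Real.log m - Real.log ((m : ℝ) - 1)) ≤ 1 := by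
  have hm' : (2 : ℝ) ≤ m := by exact_mod_cast hm
  have h1 : (0 : ℝ) < (m : ℝ) - 1 := by linarith
  have h2 : Real.log m - Real.log ((m : ℝ) - 1) = Real.log (m / ((m : ℝ) - 1)) := by
    rw [Real.log_div (by positivity) h1.ne']
  have h3 : Real.log (m / ((m : ℝ) - 1)) ≤ m / ((m : ℝ) - 1) - 1 :=
    Real.log_le_sub_one_of_pos (by positivity)
  rw [h2]
  calc ((m : ℝ) - 1) * Real.log (m / ((m : ℝ) - 1))
      ≤ ((m : ℝ) - 1) * (m / ((m : ℝ) - 1) - 1) := by gcongr
    _ = 1 := by field_simp; ring

/-- The maximal subset `A` of `X` and its two properties. -/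
theorem exists_max_set (X : Finset ι) (hX : X.Nonempty) (lam : ι → Y → ℝ)
    (hlam : ∀ x ∈ X, IsProb (lam x)) (ref : Y → ℝ) (href : IsProb ref)
    (hac : ∀ x ∈ X, AC (lam x) ref) {Δ β : ℝ} (hβ : 0 < β) (hKL : ∀ x ∈ X, KL (lam x) ref ≤ Δ) :
    ∃ A ⊆ X, A.Nonempty ∧ Real.log X.card - β * Δ ≤ Real.log A.card ∧
      ∀ B ⊆ A, B.Nonempty → ∀ d : ℝ, d ≤ KL (avg B lam) (avg A lam) →
        β * d - 1 ≤ Real.log A.card - Real.log B.card := by
  classical
  have hne : (X.powerset.filter Finset.Nonempty).Nonempty :=
    ⟨X, by simp [hX]⟩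
  obtain ⟨A, hAmem, hAmax⟩ := Finset.exists_max_image (X.powerset.filter Finset.Nonempty)
    (JJ lam β) hne
  simp only [Finset.mem_filter, Finset.mem_powerset] at hAmem hAmax
  obtain ⟨hAX, hA⟩ := hAmem
  have hmax : ∀ B ⊆ A, B.Nonempty → JJ lam β B ≤ JJ lam β A := fun B hB hBn =>
    hAmax B ⟨hB.trans hAX, hBn⟩
  have hlamA : ∀ x ∈ A, IsProb (lam x) := fun x hx => hlam x (hAX hx)
  refine ⟨A, hAX, hA, ?_, ?_⟩
  · -- first property
    have h1 : JJ lam β X ≤ JJ lam β A := hAmax X ⟨Finset.Subset.refl _, hX⟩
    have h2 : 0 ≤ info A lam := info_nonneg hA hlamA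
    have h3 : info X lam + KL (avg X lam) ref ≤ Δ := info_le_of_KL_le hX hlam href hac hKL
    have h4 : 0 ≤ KL (avg X lam) ref := KL_nonneg (avg_isProb hX hlam) href (avg_ac hac)
    have h5 : β * info X lam ≤ β * Δ := by
      apply mul_le_mul_of_nonneg_left _ hβ.le
      linarith
    have h6 : 0 ≤ β * info A lam := mul_nonneg hβ.le h2
    unfold JJ at h1
    linarith
  · -- second property
    have key : ∀ x ∈ A, KL (lam x) (avg A lam) ≤ info A lam + 1 / β := by
      intro x hx
      have hgoal : β * (KL (lam x) (avg A lam) - info A lam) ≤ 1 := by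
        have hcard : 1 ≤ A.card := hA.card_pos
        rcases Nat.lt_or_ge A.card 2 with hlt | hge
        · have hc1 : A.card = 1 := by omega
          obtain ⟨a, ha⟩ := Finset.card_eq_one.1 hc1
          have hxa : x = a := by
            rw [ha] at hx
            simpa using hx
          subst hxa
          have hi : info A lam = KL (lam x) (avg A lam) := by
            unfold info
            rw [hc1, ha]
            simp
          rw [hi]
          simp
        · set A' := A.erase x with hA'
          have hcA' : A'.card = A.card - 1 := Finset.card_erase_of_mem hx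
          have hcA'r : (A'.card : ℝ) = (A.card : ℝ) - 1 := by
            rw [hcA', Nat.cast_sub hcard]
            simp
          have hA'n : A'.Nonempty := by
            rw [← Finset.card_pos]
            omega
          have hsub : A' ⊆ A := Finset.erase_subset _ _
          have hlamA' : ∀ y ∈ A', IsProb (lam y) := fun y hy => hlamA y (hsub hy)
          have hq := avg_isProb hA hlamA
          have hac' : ∀ y ∈ A', AC (lam y) (avg A lam) := fun y hy => ac_avg hlamA (hsub hy)
          have h1 := compensation hA'n hlamA' hq hac'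
          rw [← card_mul_info hA'n, hcA'r] at h1
          have h2 : 0 ≤ KL (avg A' lam) (avg A lam) :=
            KL_nonneg (avg_isProb hA'n hlamA') hq (avg_ac hac')
          have h3 : ∑ y ∈ A', KL (lam y) (avg A lam) + KL (lam x) (avg A lam)
              = (A.card : ℝ) * info A lam := by
            rw [card_mul_info hA]
            exact Finset.sum_erase_add _ _ hx
          have h4 := hmax A' hsub hA'n
          unfold JJ at h4
          rw [hcA'r] at h4
          have h5 := log_step hge
          have hm1 : (0 : ℝ) < (A.card : ℝ) - 1 := by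
            have : (2 : ℝ) ≤ A.card := by exact_mod_cast hge
            linarith
          have h6 : KL (lam x) (avg A lam) - info A lam
              ≤ ((A.card : ℝ) - 1) * (info A lam - info A' lam) := by
            have h7 : 0 ≤ ((A.card : ℝ) - 1) * KL (avg A' lam) (avg A lam) :=
              mul_nonneg hm1.le h2
            nlinarith
          calc β * (KL (lam x) (avg A lam) - info A lam)
              ≤ β * (((A.card : ℝ) - 1) * (info A lam - info A' lam)) := by gcongr
            _ = ((A.card : ℝ) - 1) * (β * info A lam - β * info A' lam) := by ring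
            _ ≤ ((A.card : ℝ) - 1) * (Real.log A.card - Real.log ((A.card : ℝ) - 1)) := by
                apply mul_le_mul_of_nonneg_left _ hm1.le
                linarith
            _ ≤ 1 := h5
      have h8 : KL (lam x) (avg A lam) - info A lam ≤ 1 / β := by
        rw [le_div_iff₀ hβ, mul_comm]
        exact hgoal
      linarith
    intro B hB hBn d hd
    have hlamB : ∀ y ∈ B, IsProb (lam y) := fun y hy => hlamA y (hB hy)
    have hacB : ∀ y ∈ B, AC (lam y) (avg A lam) := fun y hy => ac_avg hlamA (hB hy)
    have h1 : info B lam + KL (avg B lam) (avg A lam) ≤ info A lam + 1 / β :=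
      info_le_of_KL_le hBn hlamB (avg_isProb hA hlamA) hacB fun y hy => key y (hB hy)
    have h2 := hmax B hB hBn
    unfold JJ at h2
    have h3 : β * (info B lam + d) ≤ β * (info A lam + 1 / β) := by
      apply mul_le_mul_of_nonneg_left _ hβ.le
      linarith
    have h4 : β * (1 / β) = 1 := by field_simp
    rw [mul_add, mul_add, h4] at h3
    linarith

end P126
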