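import Vale.Agent.Lib.P126.Cover

/-!
P126-POW module Superpose.

`A`, `B` symmetric bodies, `0 < c ≤ 1`, `τ = c/32`, `κ = c τ / 4`, `r : ℕ` with `1 ≤ 2^r τ`.
`mix c j A B = {(c/4) 2^j u + (c/8) v : u ∈ B, v ∈ A}` (a symmetric body).

Claim (`superpose_chain`): for all `j m` there is a finite set `H` with `H ⊆ 2τ A`, pairwise
differences not in `κ 2^j B`, and `∏_{l<m} cov A (mix c (j + r l) A B) ≤ |H|`.
Induction on `m` (for all `j`): `m = 0`: `H = {0}`.  Step: let `G ⊆ A` be separated for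
`mix c j A B` with `|G| ≥ cov A (mix c j A B)` (`exists_sep`), let `H` be the set for `(j + r, m)`, and
`H' = {τ g + τ h : g ∈ G, h ∈ H}`.  `H' ⊆ τ(1 + 2τ) A ⊆ 2τ A`.  Let `(g,h) ≠ (g',h')` and suppose
`τ(g - g') + τ(h - h') ∈ κ 2^j B`.  If `g ≠ g'`: `g - g' ∈ (κ/τ) 2^j B + (h' - h)` with
`κ/τ = c/4`, and `h' - h ∈ 4τ A = (c/8) A`, so `g - g' ∈ mix c j A B`, contradiction.  If `g = g'`,
`h ≠ h'`: `h - h' ∈ (κ/τ) 2^j B ⊆ κ 2^(j+r) B` because `1/τ ≤ 2^r`, contradiction.  In particular (as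
`0 ∈ κ 2^j B`) the map `(g,h) ↦ τ g + τ h` is injective, so `|H'| = |G| |H|`.

Main (`superpose`): `∑_{j<J} log cov A (mix c j A B) ≤ r log cov A ((c²/256) B)`.
Since all terms are `≥ 0` (covering numbers `≥ 1`) we may replace `J` by `r m ≥ J`;
`∑_{j< r m} = ∑_{ρ<r} ∑_{l<m} log cov A (mix c (ρ + r l) A B)`; for each `ρ` the chain claim gives `H` with
differences not in `κ 2^ρ B ⊇ κ B`, `H ⊆ 2τ A ⊆ A`; `sep_card_le` with `B' = (κ/2) B`:
`∏ ≤ |H| ≤ cov A ((κ/2) B)`, and `κ/2 = c²/256`.
-/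

namespace P126

open Pointwise Finset

variable {n : ℕ}

/-- The mixed body `(c/4) 2^j B + (c/8) A`. -/
def mix (c : ℝ) (j : ℕ) (A B : Set (EuclideanSpace ℝ (Fin n))) :
    Set (EuclideanSpace ℝ (Fin n)) :=
  {x | ∃ u ∈ B, ∃ v ∈ A, x = (c / 4 * 2 ^ j) • u + (c / 8) • v}

theorem mix_body {A B : Set (EuclideanSpace ℝ (Fin n))} (hA : SymBody A) (hB : SymBody B)
    {c : ℝ} (hc : 0 < c) (j : ℕ) : SymBody (mix c j A B) := by
  have hs : 0 < c / 4 * (2 : ℝ) ^ j := by positivity
  refine ⟨?_, ?_, ?_, ?_⟩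
  · rintro x ⟨u, hu, v, hv, rfl⟩ y ⟨u', hu', v', hv', rfl⟩ a b ha hb hab
    refine ⟨a • u + b • u', hB.convex hu hu' ha hb hab, a • v + b • v',
      hA.convex hv hv' ha hb hab, ?_⟩
    module
  · have hm : mix c j A B
        = (fun p : EuclideanSpace ℝ (Fin n) × EuclideanSpace ℝ (Fin n) =>
            (c / 4 * 2 ^ j) • p.1 + (c / 8) • p.2) '' (B ×ˢ A) := by
      ext x
      constructor
      · rintro ⟨u, hu, v, hv, rfl⟩
        exact ⟨(u, v), ⟨hu, hv⟩, rfl⟩
      · rintro ⟨⟨u, v⟩, ⟨hu, hv⟩, rfl⟩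
        exact ⟨u, hu, v, hv, rfl⟩
    rw [hm]
    refine (hB.compact.prod hA.compact).image ?_
    fun_prop
  · obtain ⟨ρ, hρ, hball⟩ := exists_ball hB
    refine ⟨0, ?_⟩
    rw [mem_interior]
    refine ⟨Metric.ball 0 ((c / 4 * 2 ^ j) * ρ), ?_, Metric.isOpen_ball,
      Metric.mem_ball_self (mul_pos hs hρ)⟩
    intro x hx
    rw [mem_ball_zero_iff] at hx
    refine ⟨(c / 4 * 2 ^ j)⁻¹ • x, hball ?_, 0, zero_mem hA, ?_⟩
    · rw [mem_ball_zero_iff, norm_smul, norm_inv, Real.norm_of_nonneg hs.le,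
        inv_mul_lt_iff₀ hs]
      exact hx
    · rw [smul_inv_smul₀ hs.ne', smul_zero, add_zero]
  · rintro x ⟨u, hu, v, hv, rfl⟩
    exact ⟨-u, hB.symm u hu, -v, hA.symm v hv, by module⟩

theorem superpose_chain {A B : Set (EuclideanSpace ℝ (Fin n))} (hA : SymBody A) (hB : SymBody B)
    {c : ℝ} (hc : 0 < c) (hc1 : c ≤ 1) (r : ℕ) (hr : 1 ≤ (2 : ℝ) ^ r * (c / 32)) (m j : ℕ) :
    ∃ H : Finset (EuclideanSpace ℝ (Fin n)), (∀ h ∈ H, h ∈ (c / 16) • A) ∧
      (∀ h ∈ H, ∀ h' ∈ H, h ≠ h' → h - h' ∉ (c ^ 2 / 128 * 2 ^ j) • B) ∧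
      ∏ l ∈ Finset.range m, cov A (mix c (j + r * l) A B) ≤ H.card := by
  classical
  induction m generalizing j with
  | zero =>
    refine ⟨{0}, ?_, ?_, ?_⟩
    · intro h hh
      rw [Finset.mem_singleton] at hh
      subst hh
      exact ⟨0, zero_mem hA, smul_zero _⟩
    · intro h hh h' hh' hne
      rw [Finset.mem_singleton] at hh hh'
      exact absurd (hh.trans hh'.symm) hne
    · simp
  | succ m ih =>
    obtain ⟨G, hGA, hGsep, hGcard⟩ := exists_sep hA.compact (mix_body hA hB hc j)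
    obtain ⟨H, hHA, hHsep, hHcard⟩ := ih (j + r)
    have hsmul : ∀ h ∈ H, ∃ a ∈ A, (c / 16) • a = h := fun h hh => hHA h hh
    -- separation of pairs
    have hkey : ∀ g ∈ G, ∀ h ∈ H, ∀ g' ∈ G, ∀ h' ∈ H, (g, h) ≠ (g', h') →
        ((c / 32) • g + (c / 32) • h) - ((c / 32) • g' + (c / 32) • h')
          ∉ (c ^ 2 / 128 * 2 ^ j) • B := by
      rintro g hg h hh g' hg' h' hh' hne ⟨b, hb, hbe⟩
      simp only at hbe
      have hbe2 : (32 / c) • ((c ^ 2 / 128 * 2 ^ j) • b)
          = (32 / c) • (((c / 32) • g + (c / 32) • h) - ((c / 32) • g' + (c / 32) • h')) := by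
        rw [hbe]
      have e1 : (32 / c) • ((c ^ 2 / 128 * (2 : ℝ) ^ j) • b) = (c / 4 * 2 ^ j) • b := by
        rw [smul_smul]
        congr 1
        field_simp
        ring
      have e2 : (32 / c) • (((c / 32) • g + (c / 32) • h) - ((c / 32) • g' + (c / 32) • h'))
          = (g + h) - (g' + h') := by
        have h1 : (32 / c) * (c / 32) = 1 := by field_simp
        rw [smul_sub, smul_add, smul_add, smul_smul, smul_smul, smul_smul, smul_smul, h1]
        simp only [one_smul]
      rw [e1, e2] at hbe2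
      by_cases hgg : g = g'
      · subst hgg
        have hhh : h ≠ h' := fun e => hne (by rw [e])
        refine hHsep h hh h' hh' hhh ?_
        have ht : |32 / (c * 2 ^ r)| ≤ 1 := by
          rw [abs_of_pos (by positivity), div_le_one (by positivity)]
          nlinarith [hr]
        refine ⟨(32 / (c * 2 ^ r)) • b, smul_mem hB hb ht, ?_⟩
        have e3 : h - h' = (c / 4 * 2 ^ j) • b := by
          rw [hbe2]
          abel
        simp only
        rw [e3, smul_smul]
        congr 1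
        rw [pow_add]
        field_simp
        ring
      · refine hGsep g hg g' hg' hgg ?_
        obtain ⟨a, ha, hae⟩ := hsmul h hh
        obtain ⟨a', ha', hae'⟩ := hsmul h' hh'
        refine ⟨b, hb, (1 / 2 : ℝ) • a' + (1 / 2 : ℝ) • (-a),
          hA.convex ha' (hA.symm a ha) (by norm_num) (by norm_num) (by norm_num), ?_⟩
        have e3 : g - g' = (c / 4 * 2 ^ j) • b + (h' - h) := by
          rw [hbe2]
          abel
        rw [e3, ← hae, ← hae']
        module
    have hinj : Set.InjOn (fun p : EuclideanSpace ℝ (Fin n) × EuclideanSpace ℝ (Fin n) =>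
        (c / 32) • p.1 + (c / 32) • p.2) ((G ×ˢ H : Finset _) : Set _) := by
      rintro ⟨g, h⟩ hp ⟨g', h'⟩ hp' heq
      rw [Finset.mem_coe, Finset.mem_product] at hp hp'
      by_contra hne
      refine hkey g hp.1 h hp.2 g' hp'.1 h' hp'.2 hne ?_
      simp only at heq
      rw [heq, sub_self]
      exact ⟨0, zero_mem hB, smul_zero _⟩
    refine ⟨(G ×ˢ H).image (fun p => (c / 32) • p.1 + (c / 32) • p.2), ?_, ?_, ?_⟩
    · intro x hx
      rw [Finset.mem_image] at hx
      obtain ⟨⟨g, h⟩, hp, rfl⟩ := hx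
      rw [Finset.mem_product] at hp
      obtain ⟨a, ha, hae⟩ := hsmul h hp.2
      have hhA : h ∈ A := by
        rw [← hae]
        refine smul_mem hA ha ?_
        rw [abs_of_pos (by positivity)]
        linarith
      refine ⟨(1 / 2 : ℝ) • g + (1 / 2 : ℝ) • h,
        hA.convex (hGA g hp.1) hhA (by norm_num) (by norm_num) (by norm_num), ?_⟩
      simp only
      module
    · intro x hx y hy hne
      rw [Finset.mem_image] at hx hy
      obtain ⟨⟨g, h⟩, hp, rfl⟩ := hx
      obtain ⟨⟨g', h'⟩, hp', rfl⟩ := hy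
      rw [Finset.mem_product] at hp hp'
      refine hkey g hp.1 h hp.2 g' hp'.1 h' hp'.2 ?_
      intro e
      apply hne
      rw [e]
    · rw [Finset.card_image_of_injOn hinj, Finset.card_product, Finset.prod_range_succ',
        mul_comm G.card]
      refine Nat.mul_le_mul ?_ ?_
      · refine le_trans (le_of_eq ?_) hHcard
        refine Finset.prod_congr rfl fun l _ => ?_
        congr 2
        ring
      · simpa using hGcard

/-- Splitting a range of length `r m` by residues modulo `r`. -/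
theorem sum_range_residue (f : ℕ → ℝ) (r m : ℕ) :
    ∑ j ∈ Finset.range (r * m), f j
      = ∑ ρ ∈ Finset.range r, ∑ l ∈ Finset.range m, f (ρ + r * l) := by
  induction m with
  | zero => simp
  | succ m ih =>
    rw [Nat.mul_succ, Finset.sum_range_add, ih]
    simp only [Finset.sum_range_succ]
    rw [Finset.sum_add_distrib]
    congr 1
    refine Finset.sum_congr rfl fun ρ _ => ?_
    rw [add_comm]

theorem superpose {A B : Set (EuclideanSpace ℝ (Fin n))} (hA : SymBody A) (hB : SymBody B)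
    {c : ℝ} (hc : 0 < c) (hc1 : c ≤ 1) (r : ℕ) (hr0 : 0 < r)
    (hr : 1 ≤ (2 : ℝ) ^ r * (c / 32)) (J : ℕ) :
    ∑ j ∈ Finset.range J, Real.log (cov A (mix c j A B))
      ≤ r * Real.log (cov A ((c ^ 2 / 256) • B)) := by
  have hA0 : A.Nonempty := ⟨0, zero_mem hA⟩
  have hone : ∀ j, 1 ≤ cov A (mix c j A B) := fun j =>
    one_le_cov hA.compact hA0 (mix_body hA hB hc j)
  have hlog : ∀ j, 0 ≤ Real.log (cov A (mix c j A B)) := fun j =>
    Real.log_nonneg (by exact_mod_cast hone j)
  have hB' : SymBody ((c ^ 2 / 256) • B) := body_smul hB (by positivity)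
  calc ∑ j ∈ Finset.range J, Real.log (cov A (mix c j A B))
      ≤ ∑ j ∈ Finset.range (r * J), Real.log (cov A (mix c j A B)) := by
        refine Finset.sum_le_sum_of_subset_of_nonneg ?_ (fun j _ _ => hlog j)
        intro j hj
        rw [Finset.mem_range] at hj ⊢
        exact lt_of_lt_of_le hj (Nat.le_mul_of_pos_left J hr0)
    _ = ∑ ρ ∈ Finset.range r, ∑ l ∈ Finset.range J,
          Real.log (cov A (mix c (ρ + r * l) A B)) :=
        sum_range_residue (fun j => Real.log (cov A (mix c j A B))) r J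
    _ ≤ ∑ _ρ ∈ Finset.range r, Real.log (cov A ((c ^ 2 / 256) • B)) := by
        refine Finset.sum_le_sum fun ρ _ => ?_
        obtain ⟨H, hHA, hHsep, hHcard⟩ := superpose_chain hA hB hc hc1 r hr J ρ
        have hle : H.card ≤ cov A ((c ^ 2 / 256) • B) := by
          refine sep_card_le (B := (c ^ 2 / 128 * 2 ^ ρ) • B) hA.compact hB' ?_ ?_ hHsep
          · rintro u ⟨b, hb, rfl⟩ v ⟨b', hb', rfl⟩
            have hpow : (1 : ℝ) ≤ 2 ^ ρ := one_le_pow₀ (by norm_num)
            refine ⟨(1 / 2 ^ ρ : ℝ) • ((1 / 2 : ℝ) • b + (1 / 2 : ℝ) • (-b')),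
              smul_mem hB (hB.convex hb (hB.symm b' hb') (by norm_num) (by norm_num)
                (by norm_num)) ?_, ?_⟩
            · rw [abs_of_pos (by positivity), div_le_one (by positivity)]
              exact hpow
            · simp only
              rw [smul_smul]
              have e1 : c ^ 2 / 128 * (2 : ℝ) ^ ρ * (1 / 2 ^ ρ) = c ^ 2 / 128 := by
                field_simp
              rw [e1]
              module
          · intro x hx
            obtain ⟨a, ha, hae⟩ := hHA x hx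
            rw [← hae]
            refine smul_mem hA ha ?_
            rw [abs_of_pos (by positivity)]
            linarith
        have hprod : (∏ l ∈ Finset.range J, (cov A (mix c (ρ + r * l) A B) : ℝ))
            ≤ (cov A ((c ^ 2 / 256) • B) : ℝ) := by
          have := hHcard.trans hle
          exact_mod_cast this
        have hpos : ∀ l ∈ Finset.range J, (cov A (mix c (ρ + r * l) A B) : ℝ) ≠ 0 := by
          intro l _
          have h1 := hone (ρ + r * l)
          have h2 : (1 : ℝ) ≤ (cov A (mix c (ρ + r * l) A B) : ℝ) := by exact_mod_cast h1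
          linarith
        rw [← Real.log_prod hpos]
        refine Real.log_le_log ?_ hprod
        refine Finset.prod_pos fun l _ => ?_
        have h1 := hone (ρ + r * l)
        have h2 : (1 : ℝ) ≤ (cov A (mix c (ρ + r * l) A B) : ℝ) := by exact_mod_cast h1
        linarith
    _ = r * Real.log (cov A ((c ^ 2 / 256) • B)) := by
        rw [Finset.sum_const, Finset.card_range, nsmul_eq_mul]

end P126
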