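import Vale.Agent.Lib.P126.Cover

/-!
P126-POW module Telescope.

Step: `cov K (2^j L) ≤ cov K (2^(j+1) L) * cov (2K ∩ 4·2^j L) (2^j L)`.
Proof.  Let `S` be a minimal cover of `K` by translates of `2^(j+1) L` (`cov_spec`), and `S'` a minimal
cover of `2K ∩ 4·2^j L` by translates of `2^j L`.  For `s ∈ S` with
`K ∩ (s + 2^(j+1) L)` nonempty pick a point `x_s` in it; for every `x` in this set
`x - x_s ∈ 2K` (`= 2 • ((1/2) x + (1/2)(-x_s))`) and
`x - x_s = (x - s) - (x_s - s) ∈ 2·2^(j+1) L = 4·2^j L`.  So `x - x_s - s' ∈ 2^j L` for some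
`s' ∈ S'`.  Hence the points `x_s + s'` give a cover with at most `|S| |S'|` elements
(`Finset.card_image_le` on the product).

Main: by induction on `J`: `log cov K L ≤ ∑_{j<J} log cov (2K ∩ 4·2^j L)(2^j L) + log cov K (2^J L)`
(all covering numbers are `≥ 1`).  For `K ⊆ 2^J L` (`exists_subset_smul`) the last term is `log 1 = 0`
(`cov_eq_one_of_subset`).
-/

namespace P126

open Pointwise Finset

variable {n : ℕ} {K L : Set (EuclideanSpace ℝ (Fin n))}

private theorem half_sub_mem {M : Set (EuclideanSpace ℝ (Fin n))} (hM : SymBody M)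
    {u v : EuclideanSpace ℝ (Fin n)} (hu : u ∈ M) (hv : v ∈ M) : u - v ∈ (2 : ℝ) • M := by
  refine Set.mem_smul_set.mpr ⟨(1 / 2 : ℝ) • u + (1 / 2 : ℝ) • (-v), ?_, ?_⟩
  · exact hM.convex hu (hM.symm v hv) (by norm_num) (by norm_num) (by norm_num)
  · rw [smul_add, smul_smul, smul_smul]
    norm_num
    rw [sub_eq_add_neg]

theorem cov_step (hK : SymBody K) (hL : SymBody L) (j : ℕ) :
    cov K (((2 : ℝ) ^ j) • L) ≤ cov K (((2 : ℝ) ^ (j + 1)) • L) *
      cov (((2 : ℝ) • K) ∩ ((4 * (2 : ℝ) ^ j) • L)) (((2 : ℝ) ^ j) • L) := by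
  classical
  have h2 : (0 : ℝ) < 2 ^ j := by positivity
  have h2' : (0 : ℝ) < 2 ^ (j + 1) := by positivity
  have hB0 := body_smul hL h2
  have hB1 := body_smul hL h2'
  have hC : SymBody (((2 : ℝ) • K) ∩ ((4 * (2 : ℝ) ^ j) • L)) :=
    body_inter (body_smul hK two_pos) (body_smul hL (by positivity))
  obtain ⟨S, hScard, hS⟩ := cov_spec hK.compact hB1
  obtain ⟨S', hS'card, hS'⟩ := cov_spec hC.compact hB0
  have hx : ∀ s : EuclideanSpace ℝ (Fin n), ∃ x : EuclideanSpace ℝ (Fin n),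
      (∃ a ∈ K, a - s ∈ ((2 : ℝ) ^ (j + 1)) • L) → x ∈ K ∧ x - s ∈ ((2 : ℝ) ^ (j + 1)) • L := by
    intro s
    by_cases h : ∃ a ∈ K, a - s ∈ ((2 : ℝ) ^ (j + 1)) • L
    · obtain ⟨a, ha, ha'⟩ := h
      exact ⟨a, fun _ => ⟨ha, ha'⟩⟩
    · exact ⟨0, fun h' => absurd h' h⟩
  choose x hx using hx
  have hcov := cov_le (A := K) (B := ((2 : ℝ) ^ j) • L)
    (S := (S ×ˢ S').image fun q => x q.1 + q.2) (by
      intro a ha
      obtain ⟨s, hs, has⟩ := hS a ha
      obtain ⟨hxK, hxs⟩ := hx s ⟨a, ha, has⟩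
      have hmem : a - x s ∈ ((2 : ℝ) • K) ∩ ((4 * (2 : ℝ) ^ j) • L) := by
        refine ⟨half_sub_mem hK ha hxK, ?_⟩
        have h3 := half_sub_mem hB1 has hxs
        rw [sub_sub_sub_cancel_right, smul_smul] at h3
        have h4 : (2 : ℝ) * 2 ^ (j + 1) = 4 * 2 ^ j := by ring
        rw [h4] at h3
        exact h3
      obtain ⟨s', hs', has'⟩ := hS' _ hmem
      refine ⟨x s + s', mem_image.mpr ⟨(s, s'), mem_product.mpr ⟨hs, hs'⟩, rfl⟩, ?_⟩
      rw [← sub_sub]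
      exact has')
  calc cov K (((2 : ℝ) ^ j) • L) ≤ ((S ×ˢ S').image fun q => x q.1 + q.2).card := hcov
    _ ≤ (S ×ˢ S').card := card_image_le
    _ = S.card * S'.card := card_product _ _
    _ = _ := by rw [hScard, hS'card]

theorem telescope (hK : SymBody K) (hL : SymBody L) :
    ∃ J : ℕ, Real.log (cov K L) ≤ ∑ j ∈ Finset.range J,
      Real.log (cov (((2 : ℝ) • K) ∩ ((4 * (2 : ℝ) ^ j) • L)) (((2 : ℝ) ^ j) • L)) := by
  obtain ⟨J, hJ⟩ := exists_subset_smul hK hL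
  have hbody : ∀ j : ℕ, SymBody (((2 : ℝ) ^ j) • L) := fun j => body_smul hL (by positivity)
  have hCb : ∀ j : ℕ, SymBody (((2 : ℝ) • K) ∩ ((4 * (2 : ℝ) ^ j) • L)) := fun j =>
    body_inter (body_smul hK two_pos) (body_smul hL (by positivity))
  have key : ∀ J' : ℕ, Real.log (cov K L) ≤ ∑ j ∈ Finset.range J',
      Real.log (cov (((2 : ℝ) • K) ∩ ((4 * (2 : ℝ) ^ j) • L)) (((2 : ℝ) ^ j) • L)) +
      Real.log (cov K (((2 : ℝ) ^ J') • L)) := by
    intro J'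
    induction J' with
    | zero => simp
    | succ j ih =>
      rw [sum_range_succ]
      have h1 := cov_step hK hL j
      have ha : 1 ≤ cov K (((2 : ℝ) ^ (j + 1)) • L) :=
        one_le_cov hK.compact ⟨0, zero_mem hK⟩ (hbody (j + 1))
      have hb : 1 ≤ cov (((2 : ℝ) • K) ∩ ((4 * (2 : ℝ) ^ j) • L)) (((2 : ℝ) ^ j) • L) :=
        one_le_cov (hCb j).compact ⟨0, zero_mem (hCb j)⟩ (hbody j)
      have hc : 1 ≤ cov K (((2 : ℝ) ^ j) • L) :=
        one_le_cov hK.compact ⟨0, zero_mem hK⟩ (hbody j)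
      have ha' : (0 : ℝ) < (cov K (((2 : ℝ) ^ (j + 1)) • L) : ℝ) := by exact_mod_cast ha
      have hb' : (0 : ℝ) <
          (cov (((2 : ℝ) • K) ∩ ((4 * (2 : ℝ) ^ j) • L)) (((2 : ℝ) ^ j) • L) : ℝ) := by
        exact_mod_cast hb
      have hc' : (0 : ℝ) < (cov K (((2 : ℝ) ^ j) • L) : ℝ) := by exact_mod_cast hc
      have h2 : Real.log (cov K (((2 : ℝ) ^ j) • L)) ≤
          Real.log (cov K (((2 : ℝ) ^ (j + 1)) • L)) +
          Real.log (cov (((2 : ℝ) • K) ∩ ((4 * (2 : ℝ) ^ j) • L)) (((2 : ℝ) ^ j) • L)) := by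
        rw [← Real.log_mul ha'.ne' hb'.ne']
        refine Real.log_le_log hc' ?_
        exact_mod_cast h1
      linarith
  refine ⟨J, ?_⟩
  have h1 := key J
  rw [cov_eq_one_of_subset hK (hbody J) hJ] at h1
  simpa using h1

end P126
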