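import Vale.Agent.Lib.P126.PropA
import Vale.Agent.Lib.P126.Telescope
import Vale.Agent.Lib.P126.Superpose

/-!
P126-POW module Power: the final assembly.

`one_sided`: let `s = T/(T-1)`, `c = 1/(48 T)`, `r` with `1 ≤ 2^r (c/32)`, `r > 0`.  By `telescope`
`log cov K L ≤ ∑_{j<J} log cov K_j L_j`, `K_j = 2K ∩ 4·2^j L`, `L_j = 2^j L` (`K_j` symmetric body
by `body_inter`, `body_smul`; `K_j ⊆ 4 L_j`).  By `propA`:
`log cov K_j L_j ≤ C (log cov (polar L_j) (c polar K_j))^s`.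
Now `polar L_j = 2^{-j} polar L` (`polar_smul`) and `polar K_j ⊇ {u/4 + 2^{-j} v/8 : u ∈ polar K, v ∈ polar L}`
(for `x ∈ K_j`: `⟪x,u⟫ ≤ 2`, `⟪x,v⟫ ≤ 4·2^j`).  So by `cov_mono_right`, `cov_smul`:
`cov (polar L_j) (c polar K_j) ≤ cov (2^{-j} polar L) (2^{-j} mix c j (polar L) (polar K)) = cov (polar L) (mix c j (polar L) (polar K))`,
because `c u/4 + 2^{-j} c v/8 = 2^{-j} ((c/4) 2^j u + (c/8) v)`.
So with `a_j = log cov (polar L) (mix c j ..) ≥ 0`:
`log cov K L ≤ C ∑ a_j^s ≤ C (∑ a_j)^s ≤ C (r log cov (polar L) ((c²/256) polar K))^s`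
(`∑ a_j^s ≤ (∑ a_j)^s` for `s ≥ 1`, `a_j ≥ 0`: `a_j^s = a_j a_j^(s-1) ≤ a_j (∑ a)^(s-1)`; cf.
`Real.add_rpow_le_rpow_add` / `Finset.sum` version), and `superpose`.

`power`: given `ε`, choose `T` with `1/(T-1) ≤ ε`, `a = 1/(c²/256)`; first inequality:
`x := log cov (polar L) (a⁻¹ polar K)` is `0` (then both sides fine) or `≥ log 2`, and then
`x^s ≤ (log 2)^(s-1-ε) x^(1+ε)`.
Second inequality: apply the first to `K' = polar L`, `L' = a • polar K`:
`log cov (polar L) (a polar K) ≤ b (log cov (polar (a polar K)) (a⁻¹ polar (polar L)))^(1+ε)` and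
`polar (a polar K) = a⁻¹ K`, `polar (polar L) = L`, `cov (a⁻¹ K) (a⁻¹ L) = cov K L`.
-/

namespace P126

open Pointwise

theorem power_sum_rpow (s : ℝ) (hs : 1 ≤ s) (J : ℕ) (f : ℕ → ℝ) (hf : ∀ j, 0 ≤ f j) :
    ∑ j ∈ Finset.range J, f j ^ s ≤ (∑ j ∈ Finset.range J, f j) ^ s := by
  induction J with
  | zero => simp [Real.zero_rpow (by linarith : s ≠ 0)]
  | succ J ih =>
    rw [Finset.sum_range_succ, Finset.sum_range_succ]
    have h1 : 0 ≤ ∑ j ∈ Finset.range J, f j := Finset.sum_nonneg fun j _ => hf j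
    have h2 := Real.add_rpow_le_rpow_add h1 (hf J) hs
    linarith

theorem power_key {n : ℕ} {K L : Set (EuclideanSpace ℝ (Fin n))} (hK : SymBody K)
    (hL : SymBody L) {c : ℝ} (hc : 0 < c) (j : ℕ) :
    Real.log (cov (polar (((2 : ℝ) ^ j) • L))
      (c • polar (((2 : ℝ) • K) ∩ ((4 * (2 : ℝ) ^ j) • L)))) ≤
      Real.log (cov (polar L) (mix c j (polar L) (polar K))) := by
  have h2j : (0 : ℝ) < 2 ^ j := by positivity
  have hKj : SymBody (((2 : ℝ) • K) ∩ ((4 * (2 : ℝ) ^ j) • L)) :=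
    body_inter (body_smul hK (by norm_num)) (body_smul hL (by positivity))
  have hLj : SymBody (((2 : ℝ) ^ j) • L) := body_smul hL h2j
  have hpL : SymBody (polar L) := polar_body hL
  have hpK : SymBody (polar K) := polar_body hK
  have hmix : SymBody (mix c j (polar L) (polar K)) := mix_body hpL hpK hc j
  have hinv : (0 : ℝ) < ((2 : ℝ) ^ j)⁻¹ := inv_pos.2 h2j
  have hsub : ((2 : ℝ) ^ j)⁻¹ • mix c j (polar L) (polar K) ⊆
      c • polar (((2 : ℝ) • K) ∩ ((4 * (2 : ℝ) ^ j) • L)) := by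
    rintro x ⟨y, ⟨u, hu, v, hv, rfl⟩, rfl⟩
    refine ⟨(1 / 4 : ℝ) • u + (((2 : ℝ) ^ j)⁻¹ / 8) • v, ?_, ?_⟩
    · intro x hx
      obtain ⟨⟨k, hk, hkx⟩, ⟨l, hl, hlx⟩⟩ := hx
      have h1 : inner ℝ x u ≤ 2 := by
        rw [← hkx]
        simp only [real_inner_smul_left]
        have := hu k hk
        linarith
      have h2 : inner ℝ x v ≤ 4 * (2 : ℝ) ^ j := by
        rw [← hlx]
        simp only [real_inner_smul_left]
        have := hv l hl
        have h4 : (0 : ℝ) < 4 * 2 ^ j := by positivity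
        nlinarith
      rw [inner_add_right, real_inner_smul_right, real_inner_smul_right]
      have h3 : ((2 : ℝ) ^ j)⁻¹ / 8 * inner ℝ x v ≤ 1 / 2 := by
        calc ((2 : ℝ) ^ j)⁻¹ / 8 * inner ℝ x v ≤ ((2 : ℝ) ^ j)⁻¹ / 8 * (4 * (2 : ℝ) ^ j) := by
              gcongr
          _ = 1 / 2 := by
              field_simp
              norm_num
      linarith
    · simp only [smul_add, smul_smul]
      congr 2
      · field_simp
      · field_simp
  have hle : cov (polar (((2 : ℝ) ^ j) • L))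
      (c • polar (((2 : ℝ) • K) ∩ ((4 * (2 : ℝ) ^ j) • L))) ≤
      cov (polar L) (mix c j (polar L) (polar K)) := by
    rw [polar_smul h2j, ← cov_smul (A := polar L) (B := mix c j (polar L) (polar K)) hinv]
    exact cov_mono_right (body_smul hpL hinv).compact (body_smul hmix hinv) hsub
  have hpos : 1 ≤ cov (polar (((2 : ℝ) ^ j) • L))
      (c • polar (((2 : ℝ) • K) ∩ ((4 * (2 : ℝ) ^ j) • L))) :=
    one_le_cov (polar_body hLj).compact ⟨0, zero_mem (polar_body hLj)⟩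
      (body_smul (polar_body hKj) hc)
  apply Real.log_le_log
  · exact_mod_cast hpos
  · exact_mod_cast hle

theorem one_sided (T : ℕ) (hT : 2 ≤ T) : ∃ a C : ℝ, 1 ≤ a ∧ 1 ≤ C ∧
    ∀ (n : ℕ) (K L : Set (EuclideanSpace ℝ (Fin n))), SymBody K → SymBody L →
      Real.log (cov K L) ≤
        C * (Real.log (cov (polar L) (a⁻¹ • polar K))) ^ ((T : ℝ) / ((T : ℝ) - 1)) := by
  obtain ⟨C, hC1, hC⟩ := propA T hT
  have hT' : (2 : ℝ) ≤ T := by exact_mod_cast hT
  set c : ℝ := 1 / (48 * (T : ℝ)) with hcdef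
  have hc0 : 0 < c := by positivity
  have hc1 : c ≤ 1 := by
    rw [hcdef, div_le_one (by positivity)]
    linarith
  set s : ℝ := (T : ℝ) / ((T : ℝ) - 1) with hsdef
  have hs1 : 1 ≤ s := by
    rw [hsdef, le_div_iff₀ (by linarith)]
    linarith
  obtain ⟨r, hr⟩ : ∃ r : ℕ, 0 < r ∧ 1 ≤ (2 : ℝ) ^ r * (c / 32) := by
    obtain ⟨r, hr⟩ := pow_unbounded_of_one_lt (32 / c) (by norm_num : (1 : ℝ) < 2)
    refine ⟨r + 1, Nat.succ_pos r, ?_⟩
    have h1 : (2 : ℝ) ^ r * (c / 32) ≥ 1 := by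
      calc (2 : ℝ) ^ r * (c / 32) ≥ (32 / c) * (c / 32) := by
            gcongr
        _ = 1 := by field_simp
    have h2 : (0 : ℝ) ≤ (2 : ℝ) ^ r * (c / 32) := by positivity
    calc (1 : ℝ) ≤ (2 : ℝ) ^ r * (c / 32) := h1
      _ ≤ 2 * ((2 : ℝ) ^ r * (c / 32)) := by linarith
      _ = (2 : ℝ) ^ (r + 1) * (c / 32) := by ring
  obtain ⟨hr0, hr1⟩ := hr
  have hr0' : (1 : ℝ) ≤ r := by exact_mod_cast hr0
  refine ⟨256 / c ^ 2, C * (r : ℝ) ^ s, ?_, ?_, ?_⟩
  · rw [le_div_iff₀ (by positivity)]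
    have : c ^ 2 ≤ 1 := pow_le_one₀ hc0.le hc1
    linarith
  · have h1 : (1 : ℝ) ≤ (r : ℝ) ^ s := Real.one_le_rpow hr0' (by linarith)
    calc (1 : ℝ) = 1 * 1 := by ring
      _ ≤ C * (r : ℝ) ^ s := by gcongr
  intro n K L hK hL
  obtain ⟨J, hJ⟩ := telescope hK hL
  have hpL : SymBody (polar L) := polar_body hL
  have hpK : SymBody (polar K) := polar_body hK
  set f : ℕ → ℝ := fun j => Real.log (cov (polar L) (mix c j (polar L) (polar K))) with hf
  have hf0 : ∀ j, 0 ≤ f j := fun j => Real.log_natCast_nonneg _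
  have hstep : ∀ j ∈ Finset.range J,
      Real.log (cov (((2 : ℝ) • K) ∩ ((4 * (2 : ℝ) ^ j) • L)) (((2 : ℝ) ^ j) • L)) ≤
        C * f j ^ s := by
    intro j _
    have h2j : (0 : ℝ) < 2 ^ j := by positivity
    have hKj : SymBody (((2 : ℝ) • K) ∩ ((4 * (2 : ℝ) ^ j) • L)) :=
      body_inter (body_smul hK (by norm_num)) (body_smul hL (by positivity))
    have hLj : SymBody (((2 : ℝ) ^ j) • L) := body_smul hL h2j
    have hsub : ((2 : ℝ) • K) ∩ ((4 * (2 : ℝ) ^ j) • L) ⊆ (4 : ℝ) • (((2 : ℝ) ^ j) • L) := by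
      rw [smul_smul]
      exact Set.inter_subset_right
    refine (hC n _ _ hKj hLj hsub).trans ?_
    refine mul_le_mul_of_nonneg_left ?_ (by linarith)
    exact Real.rpow_le_rpow (Real.log_natCast_nonneg _) (power_key hK hL hc0 j) (by linarith)
  have hsup := superpose hpL hpK hc0 hc1 r hr0 hr1 J
  have hinv : (256 / c ^ 2)⁻¹ = c ^ 2 / 256 := by
    rw [inv_div]
  rw [hinv]
  set X : ℝ := Real.log (cov (polar L) ((c ^ 2 / 256) • polar K)) with hX
  have hX0 : 0 ≤ X := Real.log_natCast_nonneg _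
  calc Real.log (cov K L) ≤ ∑ j ∈ Finset.range J, C * f j ^ s := hJ.trans (Finset.sum_le_sum hstep)
    _ = C * ∑ j ∈ Finset.range J, f j ^ s := by rw [Finset.mul_sum]
    _ ≤ C * (∑ j ∈ Finset.range J, f j) ^ s :=
        mul_le_mul_of_nonneg_left (power_sum_rpow s hs1 J f hf0) (by linarith)
    _ ≤ C * (r * X) ^ s := by
        refine mul_le_mul_of_nonneg_left ?_ (by linarith)
        exact Real.rpow_le_rpow (Finset.sum_nonneg fun j _ => hf0 j) hsup (by linarith)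
    _ = C * (r : ℝ) ^ s * X ^ s := by
        rw [Real.mul_rpow (by linarith) hX0]
        ring

theorem power (ε : ℝ) (hε : 0 < ε) : ∃ a b : ℝ, 1 ≤ a ∧ 1 ≤ b ∧
    ∀ (n : ℕ) (K L : Set (EuclideanSpace ℝ (Fin n))), SymBody K → SymBody L →
      Real.log (cov K L) ≤ b * (Real.log (cov (polar L) (a⁻¹ • polar K))) ^ (1 + ε) ∧
      Real.log (cov (polar L) (a • polar K)) ≤ b * (Real.log (cov K L)) ^ (1 + ε) := by
  obtain ⟨T, hT2, hTε⟩ : ∃ T : ℕ, 2 ≤ T ∧ (T : ℝ) / ((T : ℝ) - 1) ≤ 1 + ε := by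
    obtain ⟨m, hm⟩ := exists_nat_gt (1 / ε)
    refine ⟨m + 2, by omega, ?_⟩
    have hm0 : (0 : ℝ) ≤ m := Nat.cast_nonneg m
    push_cast
    rw [div_le_iff₀ (by linarith)]
    have h1 : 1 < m * ε := by
      rwa [div_lt_iff₀ hε] at hm
    nlinarith
  obtain ⟨a, C, ha, hC, hmain⟩ := one_sided T hT2
  have hT' : (2 : ℝ) ≤ T := by exact_mod_cast hT2
  set s : ℝ := (T : ℝ) / ((T : ℝ) - 1) with hsdef
  have hs1 : 1 ≤ s := by
    rw [hsdef, le_div_iff₀ (by linarith)]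
    linarith
  set D : ℝ := max 1 ((Real.log 2) ^ (s - (1 + ε))) with hD
  have hD1 : 1 ≤ D := le_max_left _ _
  have hpow : ∀ N : ℕ, (Real.log N) ^ s ≤ D * (Real.log N) ^ (1 + ε) := by
    intro N
    by_cases hN : N ≤ 1
    · have h0 : Real.log N = 0 := by
        interval_cases N <;> simp
      rw [h0, Real.zero_rpow (by linarith), Real.zero_rpow (by linarith)]
      simp
    · push Not at hN
      have hlog2 : 0 < Real.log 2 := Real.log_pos (by norm_num)
      have h1 : Real.log 2 ≤ Real.log N := by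
        apply Real.log_le_log (by norm_num)
        exact_mod_cast hN
      have h2 : 0 < Real.log N := lt_of_lt_of_le hlog2 h1
      have h3 : (Real.log N) ^ s = (Real.log N) ^ (s - (1 + ε)) * (Real.log N) ^ (1 + ε) := by
        rw [← Real.rpow_add h2]
        congr 1
        ring
      rw [h3]
      refine mul_le_mul_of_nonneg_right ?_ (Real.rpow_nonneg h2.le _)
      refine le_trans ?_ (le_max_right _ _)
      exact Real.rpow_le_rpow_of_nonpos hlog2 h1 (by linarith)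
  have hfirst : ∀ (n : ℕ) (K L : Set (EuclideanSpace ℝ (Fin n))), SymBody K → SymBody L →
      Real.log (cov K L) ≤ (C * D) * (Real.log (cov (polar L) (a⁻¹ • polar K))) ^ (1 + ε) := by
    intro n K L hK hL
    refine (hmain n K L hK hL).trans ?_
    rw [mul_assoc]
    exact mul_le_mul_of_nonneg_left (hpow _) (by linarith)
  refine ⟨a, C * D, ha, ?_, ?_⟩
  · calc (1 : ℝ) = 1 * 1 := by ring
      _ ≤ C * D := by gcongr
  intro n K L hK hL
  refine ⟨hfirst n K L hK hL, ?_⟩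
  have ha0 : 0 < a := by linarith
  have h := hfirst n (polar L) (a • polar K) (polar_body hL) (body_smul (polar_body hK) ha0)
  rw [polar_smul ha0, bipolar hK, bipolar hL, cov_smul (inv_pos.2 ha0)] at h
  exact h

end P126
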