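import Vale.Agent.Lib.P126.Iterate
import Vale.Agent.Lib.P126.BodyNorm
import Vale.Agent.Lib.P126.CodeCover

/-!
P126-POW module PropA: the case `K ⊆ 4 L`.

Proof.  Let `N = cov (polar L) ((1/(48 T)) • polar K) ≥ 1`.
If `N = 1` then `polar L ⊆ (1/(48T)) polar K` (`subset_of_cov_eq_one`), so every `x ∈ K` has
`⟪x, y⟫ ≤ 1/(48T) ≤ 1` for `y ∈ polar L`, `x ∈ polar (polar L) = L` (`bipolar`), so
`cov K L = 1` and both sides are `0`.
If `N ≥ 2`: `exists_norm` gives `E, φ`.  `exists_sep` for `(K, L)` gives `X₀ ⊆ K`, differences not in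
`L`, `cov K L ≤ |X₀|`.  Apply `iterate_pow T` to `φ '' K` (convex; norms `≤ 4` because `K ⊆ 4 L`) and
`X = X₀.image φ` (nonempty since `cov K L ≥ 1`; same cardinality; distances `> 1`).  `M = (128 T + 1) N`, so
`(16/δ + 1) N < M + 1` for `δ = 1/(8T)`.  `NoCode (φ '' K) δ (M+1)`: a code gives via `exists_norm`
vectors `g i ∈ polar L` and points `z i ∈ K` as in `code_cover`, so `M + 1 ≤ (16/δ + 1) N`, contradiction.
So `log cov K L ≤ log |X₀| ≤ C (2 + log (2M+2))^s`, `s = T/(T-1)`.  Finally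
`2M + 2 ≤ 2(128T+1)N + 2 ≤ (256 T + 4) N` so
`2 + log(2M+2) ≤ 2 + log (256 T + 4) + log N ≤ ((2 + log (256T+4))/log 2 + 1) log N`.
-/

namespace P126

open Pointwise

theorem PropA_noCode {n : ℕ} {K L : Set (EuclideanSpace ℝ (Fin n))} (hK : SymBody K)
    (hL : SymBody L) (hKL : K ⊆ (4 : ℝ) • L) (T : ℕ) (hT : 1 ≤ T)
    {E : Type} [NormedAddCommGroup E] [NormedSpace ℝ E]
    (φ : EuclideanSpace ℝ (Fin n) ≃ₗ[ℝ] E)
    (hf : ∀ f : E →L[ℝ] ℝ, ‖f‖ ≤ 1 → ∃ g ∈ polar L, ∀ x, f (φ x) = inner ℝ x g) :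
    NoCode (φ '' K) (1 / (8 * (T : ℝ)))
      ((128 * T + 1) * cov (polar L) ((1 / (48 * (T : ℝ))) • polar K) + 1) := by
  rintro ⟨z, f, hz, hnf, hcode⟩
  have hTpos : (0 : ℝ) < T := by exact_mod_cast hT
  choose z' hz' hzz using hz
  choose g hg hgf using fun i => hf (f i) (hnf i)
  have hc : ∀ i j, i < j → inner ℝ (z' j) (g i) + 1 / (8 * (T : ℝ)) ≤ inner ℝ (z' i) (g i) := by
    intro i j hij
    have h1 := hcode i j hij
    rw [← hzz i, ← hzz j, hgf, hgf] at h1
    exact h1
  have hδ : (0 : ℝ) < 1 / (8 * (T : ℝ)) := by positivity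
  have key := code_cover hK hL hKL hδ _ z' g hz' hg hc
  have h1 : (1 / (8 * (T : ℝ))) / 6 = 1 / (48 * (T : ℝ)) := by
    field_simp
    norm_num
  have h2 : 16 / (1 / (8 * (T : ℝ))) = 128 * T := by
    field_simp
    norm_num
  rw [h1, h2] at key
  push_cast at key
  linarith

theorem PropA_trivial {n : ℕ} {K L : Set (EuclideanSpace ℝ (Fin n))} (hK : SymBody K)
    (hL : SymBody L) {c : ℝ} (hc0 : 0 < c) (hc1 : c ≤ 1)
    (h : cov (polar L) (c • polar K) = 1) : cov K L = 1 := by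
  have hsub := subset_of_cov_eq_one (polar_body hL) (body_smul (polar_body hK) hc0) h
  apply cov_eq_one_of_subset hK hL
  intro x hx
  rw [← bipolar hL]
  intro y hy
  obtain ⟨u, hu, rfl⟩ := hsub hy
  have h1 : inner ℝ x u ≤ 1 := hu x hx
  simp only [inner_smul_left, real_inner_comm]
  simp only [conj_trivial]
  nlinarith

theorem propA (T : ℕ) (hT : 2 ≤ T) : ∃ C : ℝ, 1 ≤ C ∧
    ∀ (n : ℕ) (K L : Set (EuclideanSpace ℝ (Fin n))), SymBody K → SymBody L →
      K ⊆ (4 : ℝ) • L →
      Real.log (cov K L) ≤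
        C * (Real.log (cov (polar L) ((1 / (48 * (T : ℝ))) • polar K))) ^
          ((T : ℝ) / ((T : ℝ) - 1)) := by
  obtain ⟨C₀, hC₀, hmain⟩ := iterate_pow T hT
  have hT2 : (2 : ℝ) ≤ T := by exact_mod_cast hT
  have hs : (0 : ℝ) < (T : ℝ) / ((T : ℝ) - 1) := by
    apply div_pos <;> linarith
  set s : ℝ := (T : ℝ) / ((T : ℝ) - 1) with hsdef
  set D : ℝ := (2 + Real.log (256 * T + 4)) / Real.log 2 + 1 with hD
  have hlog2 : 0 < Real.log 2 := Real.log_pos (by norm_num)
  have hlogT : 0 ≤ Real.log (256 * T + 4) := Real.log_nonneg (by linarith)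
  have hD1 : 1 ≤ D := by
    have : 0 ≤ (2 + Real.log (256 * T + 4)) / Real.log 2 := by positivity
    linarith
  have hDs : 1 ≤ D ^ s := Real.one_le_rpow hD1 hs.le
  refine ⟨C₀ * D ^ s, by nlinarith, ?_⟩
  intro n K L hK hL hKL
  set N : ℕ := cov (polar L) ((1 / (48 * (T : ℝ))) • polar K) with hN
  have hc0 : (0 : ℝ) < 1 / (48 * (T : ℝ)) := by positivity
  have hc1 : 1 / (48 * (T : ℝ)) ≤ 1 := by
    rw [div_le_one (by positivity)]
    linarith
  have hN1 : 1 ≤ N := one_le_cov (polar_body hL).compact ⟨0, zero_mem (polar_body hL)⟩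
    (body_smul (polar_body hK) hc0)
  rcases Nat.eq_or_lt_of_le hN1 with hNe | hNlt
  · have h1 : cov K L = 1 := PropA_trivial hK hL hc0 hc1 hNe.symm
    rw [h1, ← hNe]
    simp [Real.zero_rpow hs.ne']
  · obtain ⟨E, _, _, _, φ, hφ, hf⟩ := exists_norm hL
    obtain ⟨X₀, hX₀K, hX₀sep, hX₀card⟩ := exists_sep hK.compact hL
    have hcov1 : 1 ≤ cov K L := one_le_cov hK.compact ⟨0, zero_mem hK⟩ hL
    have hno := PropA_noCode hK hL hKL T (by omega) φ hf
    set M : ℕ := (128 * T + 1) * N with hM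
    have h1 := hmain (φ '' K) (hK.convex.is_linear_image φ.isLinear) (by
        rintro _ ⟨k, hk, rfl⟩
        obtain ⟨l, hl, rfl⟩ := hKL hk
        have h2 := (hφ l).mp hl
        simp only [map_smul, norm_smul]
        rw [Real.norm_of_nonneg (by norm_num)]
        linarith) (X₀.map φ.toEquiv.toEmbedding) (by
        intro x hx
        rw [Finset.mem_map] at hx
        obtain ⟨k, hk, rfl⟩ := hx
        exact ⟨k, hX₀K k hk, rfl⟩) (by
        rw [Finset.map_nonempty, ← Finset.card_pos]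
        omega) (by
        intro x hx y hy hxy
        rw [Finset.mem_map] at hx hy
        obtain ⟨a, ha, rfl⟩ := hx
        obtain ⟨b, hb, rfl⟩ := hy
        have hab : a ≠ b := fun h => hxy (by rw [h])
        have h2 := hX₀sep a ha b hb hab
        rw [hφ, not_le, map_sub] at h2
        exact h2) M hno
    rw [Finset.card_map] at h1
    have hNr : (1 : ℝ) ≤ N := by exact_mod_cast hN1
    have hN2r : (2 : ℝ) ≤ N := by exact_mod_cast hNlt
    have hlogN : Real.log 2 ≤ Real.log N := Real.log_le_log (by norm_num) hN2r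
    have hMN : (2 * (M : ℝ) + 2) ≤ (256 * T + 4) * N := by
      rw [hM]
      push_cast
      nlinarith
    have hM0 : (0 : ℝ) ≤ M := Nat.cast_nonneg M
    have h3 : 2 + Real.log (2 * M + 2) ≤ D * Real.log N := by
      have h4 : Real.log (2 * M + 2) ≤ Real.log (256 * T + 4) + Real.log N := by
        rw [← Real.log_mul (by positivity) (by positivity)]
        exact Real.log_le_log (by positivity) hMN
      have h5 : 2 + Real.log (256 * T + 4) ≤
          (2 + Real.log (256 * T + 4)) / Real.log 2 * Real.log N := by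
        rw [div_mul_eq_mul_div, le_div_iff₀ hlog2]
        exact mul_le_mul_of_nonneg_left hlogN (by linarith)
      rw [hD, add_mul, one_mul]
      linarith
    have h6 : 0 ≤ 2 + Real.log (2 * M + 2) := by
      have : 0 ≤ Real.log (2 * (M : ℝ) + 2) := Real.log_nonneg (by linarith)
      linarith
    have h7 : 0 ≤ Real.log N := hlog2.le.trans hlogN
    calc Real.log (cov K L) ≤ Real.log X₀.card := by
          apply Real.log_le_log
          · exact_mod_cast hcov1
          · exact_mod_cast hX₀card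
      _ ≤ C₀ * (2 + Real.log (2 * M + 2)) ^ s := h1
      _ ≤ C₀ * (D * Real.log N) ^ s := by
          apply mul_le_mul_of_nonneg_left _ (by linarith)
          exact Real.rpow_le_rpow h6 h3 hs.le
      _ = C₀ * D ^ s * Real.log N ^ s := by
          rw [Real.mul_rpow (by linarith) h7, mul_assoc]

end P126
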