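import Vale.Agent.Lib.P126.PropA

/-!
P126: quantitative version of `propA`, real analysis part.
-/

namespace P126

theorem quant_log_bound (T : ℕ) : Real.log (256 * T + 4) ≤ 6 + T := by
  have h0 : (0 : ℝ) ≤ T := Nat.cast_nonneg T
  rw [Real.log_le_iff_le_exp (by linarith)]
  have h1 : Real.exp (6 + (T : ℝ)) = Real.exp 6 * Real.exp T := Real.exp_add _ _
  have h2 : (T : ℝ) + 1 ≤ Real.exp T := Real.add_one_le_exp _
  have h3 : (256 : ℝ) ≤ Real.exp 6 := by
    have h4 : (2.7182818283 : ℝ) < Real.exp 1 := Real.exp_one_gt_d9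
    have h5 : Real.exp 6 = Real.exp 1 ^ 6 := by
      rw [← Real.exp_nat_mul]
      norm_num
    rw [h5]
    calc (256 : ℝ) ≤ 2.7182818283 ^ 6 := by norm_num
      _ ≤ _ := by gcongr
  rw [h1]
  have h6 : 256 * ((T : ℝ) + 1) ≤ Real.exp 6 * Real.exp T := by
    apply mul_le_mul h3 h2 (by linarith) (by linarith)
  linarith

theorem quant_log_small (T : ℕ) (hT : T ≤ 25) : Real.log (256 * T + 4) ≤ 9 := by
  have h0 : (0 : ℝ) ≤ T := Nat.cast_nonneg T
  rw [Real.log_le_iff_le_exp (by linarith)]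
  have h3 : (6404 : ℝ) ≤ Real.exp 9 := by
    have h4 : (2.7182818283 : ℝ) < Real.exp 1 := Real.exp_one_gt_d9
    have h5 : Real.exp 9 = Real.exp 1 ^ 9 := by
      rw [← Real.exp_nat_mul]
      norm_num
    rw [h5]
    calc (6404 : ℝ) ≤ 2.7182818283 ^ 9 := by norm_num
      _ ≤ _ := by gcongr
  have h1 : (T : ℝ) ≤ 25 := by exact_mod_cast hT
  linarith

theorem quant_pow_bound (T : ℕ) (hT : 26 ≤ T) :
    8192 * ((T : ℝ) * (17 + 2 * T)) ≤ 2 ^ (T - 1) := by
  induction T, hT using Nat.le_induction with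
  | base => norm_num
  | succ T hT ih =>
    have h1 : (2 : ℝ) ^ (T + 1 - 1) = 2 * 2 ^ (T - 1) := by
      rw [← pow_succ']
      congr 1
      omega
    rw [h1]
    have h2 : (26 : ℝ) ≤ T := by exact_mod_cast hT
    push_cast
    nlinarith

theorem quant_caseB (T : ℕ) (hT : 1 ≤ T) (L n : ℝ) (hn : Real.log 2 ≤ n)
    (h : L ≤ T * (2 * (2 + Real.log (256 * T + 4) + n) + Real.log 2))
    (hmin : T = 1 ∨ 2 ^ (T - 1) < 4096 * L) : L ≤ 80 * T * n := by
  have hl2 : (0.6931471803 : ℝ) < Real.log 2 := Real.log_two_gt_d9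
  have hl2' : Real.log 2 < 0.6931471808 := Real.log_two_lt_d9
  have hT1 : (1 : ℝ) ≤ T := by exact_mod_cast hT
  by_cases hT25 : T ≤ 25
  · have h1 := quant_log_small T hT25
    have h2 : 2 * (2 + Real.log (256 * T + 4) + n) + Real.log 2 ≤ 80 * n := by linarith
    calc L ≤ T * (2 * (2 + Real.log (256 * T + 4) + n) + Real.log 2) := h
      _ ≤ T * (80 * n) := by gcongr
      _ = 80 * T * n := by ring
  · rw [not_le] at hT25
    have h1 := quant_log_bound T
    have h2 := quant_pow_bound T (by omega)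
    rcases hmin with h3 | h3
    · omega
    have h4 : (T : ℝ) * (2 * (2 + Real.log (256 * T + 4) + n) + Real.log 2) ≤
        T * (17 + 2 * T) + 2 * T * n := by
      have : 2 * (2 + Real.log (256 * T + 4) + n) + Real.log 2 ≤ 17 + 2 * T + 2 * n := by
        linarith
      calc (T : ℝ) * (2 * (2 + Real.log (256 * T + 4) + n) + Real.log 2) ≤
          T * (17 + 2 * T + 2 * n) := by gcongr
        _ = _ := by ring
    have h5 : (0 : ℝ) ≤ T * n := by
      apply mul_nonneg <;> linarith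
    nlinarith

theorem quant_caseA (T : ℕ) (hT : 2 ≤ T) (L n c : ℝ) (hn : Real.log 2 ≤ n) (hc : 2 ≤ c)
    (hcT : c ^ T = 4096 * L)
    (h : L ≤ T * (c * (2 + Real.log (256 * T + 4) + n) + Real.log 2)) :
    c ^ T ≤ 77824 * T * n * c := by
  have hl2 : (0.6931471803 : ℝ) < Real.log 2 := Real.log_two_gt_d9
  have hl2' : Real.log 2 < 0.6931471808 := Real.log_two_lt_d9
  have hT1 : (2 : ℝ) ≤ T := by exact_mod_cast hT
  have hc0 : 0 < c := by linarith
  by_cases hT25 : T ≤ 25
  · have h1 := quant_log_small T hT25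
    have h2 : c * (2 + Real.log (256 * T + 4) + n) + Real.log 2 ≤ c * (19 * n) := by
      have h3 : c * (2 + Real.log (256 * T + 4) + n) + Real.log 2 ≤
          c * (2 + Real.log (256 * T + 4) + n + 1) := by
        have : Real.log 2 ≤ c := by linarith
        linarith
      refine h3.trans ?_
      apply mul_le_mul_of_nonneg_left _ hc0.le
      linarith
    have h4 : L ≤ T * (c * (19 * n)) := h.trans (by gcongr)
    calc c ^ T = 4096 * L := hcT
      _ ≤ 4096 * (T * (c * (19 * n))) := by gcongr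
      _ = _ := by ring
  · rw [not_le] at hT25
    have h1 := quant_log_bound T
    have h2 := quant_pow_bound T (by omega)
    have h3 : c ^ T = c ^ (T - 1) * c := by
      rw [← pow_succ]
      congr 1
      omega
    have h4 : (2 : ℝ) ^ (T - 1) ≤ c ^ (T - 1) := by gcongr
    have h5 : L ≤ T * (c * (9 + T + n)) := by
      refine h.trans ?_
      apply mul_le_mul_of_nonneg_left _ (by linarith)
      have : Real.log 2 ≤ c := by linarith
      nlinarith
    have h6 : T * (c * (9 + T + n)) = T * (9 + T) * c + T * c * n := by ring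
    have h7 : 8192 * (T * (9 + T) * c) ≤ c ^ T := by
      rw [h3]
      have h8 : 8192 * ((T : ℝ) * (9 + T)) ≤ c ^ (T - 1) := by nlinarith
      nlinarith
    have h9 : 0 ≤ T * c * n := by
      have : 0 ≤ n := by linarith
      positivity
    have h10 : 4096 * L ≤ 4096 * (T * (9 + T) * c + T * c * n) := by linarith
    nlinarith

theorem quant_real (T : ℕ) (hT : 2 ≤ T) (L n : ℝ) (hn : Real.log 2 ≤ n)
    (h : ∀ (T' : ℕ) (c : ℝ), 1 ≤ T' → T' ≤ T → 0 < c → 4096 * L ≤ c ^ T' →
      L ≤ T' * (c * (2 + Real.log (256 * T' + 4) + n) + Real.log 2)) :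
    L ≤ (77824 * T * n) ^ ((T : ℝ) / ((T : ℝ) - 1)) := by
  have hl2 : (0.6931471803 : ℝ) < Real.log 2 := Real.log_two_gt_d9
  have hT2 : (2 : ℝ) ≤ T := by exact_mod_cast hT
  have hT1 : (0 : ℝ) < (T : ℝ) - 1 := by linarith
  have hq1 : 1 ≤ (T : ℝ) / ((T : ℝ) - 1) := by
    rw [le_div_iff₀ hT1]
    linarith
  have hB : 1 ≤ 77824 * T * n := by nlinarith
  by_cases hc : 4096 * L ≤ 2 ^ T
  · -- case B
    have hex : ∃ T' : ℕ, 1 ≤ T' ∧ 4096 * L ≤ 2 ^ T' := ⟨T, by omega, hc⟩
    classical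
    obtain ⟨hs1, hs2⟩ := Nat.find_spec hex
    have hle : Nat.find hex ≤ T := Nat.find_min' hex ⟨by omega, hc⟩
    have h1 := h (Nat.find hex) 2 hs1 hle (by norm_num) hs2
    have h2 : Nat.find hex = 1 ∨ 2 ^ (Nat.find hex - 1) < 4096 * L := by
      by_cases h3 : Nat.find hex = 1
      · exact Or.inl h3
      · right
        have h4 := Nat.find_min hex (m := Nat.find hex - 1) (by omega)
        by_contra h5
        exact h4 ⟨by omega, by linarith⟩
    have h3 := quant_caseB _ hs1 L n hn h1 h2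
    have h4 : 80 * (Nat.find hex : ℝ) * n ≤ 77824 * T * n := by
      have h5 : (Nat.find hex : ℝ) ≤ T := by exact_mod_cast hle
      have h6 : 0 ≤ n := by linarith
      have h7 : (0 : ℝ) ≤ (Nat.find hex : ℝ) := Nat.cast_nonneg _
      nlinarith [mul_le_mul_of_nonneg_right h5 h6, mul_nonneg h7 h6]
    calc L ≤ 77824 * T * n := h3.trans h4
      _ = (77824 * T * n) ^ (1 : ℝ) := (Real.rpow_one _).symm
      _ ≤ _ := Real.rpow_le_rpow_of_exponent_le hB hq1
  · rw [not_le] at hc
    have hL0 : 0 < 4096 * L := lt_trans (by positivity) hc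
    have hTne : T ≠ 0 := by omega
    set c : ℝ := (4096 * L) ^ ((T : ℝ)⁻¹) with hcdef
    have hcT : c ^ T = 4096 * L := Real.rpow_inv_natCast_pow hL0.le hTne
    have hc0 : 0 < c := Real.rpow_pos_of_pos hL0 _
    have hc2 : 2 ≤ c := by
      have : (2 : ℝ) ^ T < c ^ T := by rwa [hcT]
      exact (lt_of_pow_lt_pow_left₀ T hc0.le this).le
    have h1 := h T c (by omega) le_rfl hc0 hcT.ge
    have h2 := quant_caseA T hT L n c hn hc2 hcT h1
    have h4 : c ^ (T - 1) ≤ 77824 * T * n := by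
      have h5 : c ^ T = c ^ (T - 1) * c := by
        rw [← pow_succ]
        congr 1
        omega
      rw [h5] at h2
      exact le_of_mul_le_mul_right h2 hc0
    have h7 : c ≤ (77824 * T * n) ^ (((T - 1 : ℕ) : ℝ)⁻¹) := by
      calc c = (c ^ (T - 1)) ^ (((T - 1 : ℕ) : ℝ)⁻¹) :=
            (Real.pow_rpow_inv_natCast hc0.le (by omega)).symm
        _ ≤ _ := Real.rpow_le_rpow (by positivity) h4 (by positivity)
    have h8 : ((T - 1 : ℕ) : ℝ) = (T : ℝ) - 1 := by
      rw [Nat.cast_sub (by omega), Nat.cast_one]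
    rw [h8] at h7
    have hLc : L ≤ c ^ T := by
      rw [hcT]
      linarith
    refine hLc.trans ?_
    have h9 : ((77824 * T * n) ^ (((T : ℝ) - 1)⁻¹)) ^ T =
        (77824 * T * n) ^ ((T : ℝ) / ((T : ℝ) - 1)) := by
      rw [← Real.rpow_natCast, ← Real.rpow_mul (by linarith)]
      congr 1
      field_simp
    rw [← h9]
    exact pow_le_pow_left₀ hc0.le h7 T

end P126
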