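import Vale.Agent.Lib.P126.Superpose

/-!
P126: superposition of scales with linear loss in the radius.

`A`, `B` symmetric bodies, `0 < c ≤ 1`, `r : ℕ` with `1 ≤ 2^r (c/32)`.
For all `j m` there is a finite set `H ⊆ A`, pairwise differences not in `(c/8) 2^j B`, and
`∏_{l<m} cov A (mix c (j + r l) A B) ≤ |H|`: in the step take `(1/2) g + (c/32) h`.
-/

namespace P126

open Pointwise Finset

variable {n : ℕ}

theorem superposeB_chain {A B : Set (EuclideanSpace ℝ (Fin n))} (hA : SymBody A) (hB : SymBody B)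
    {c : ℝ} (hc : 0 < c) (hc1 : c ≤ 1) (r : ℕ) (hr : 1 ≤ (2 : ℝ) ^ r * (c / 32)) (m j : ℕ) :
    ∃ H : Finset (EuclideanSpace ℝ (Fin n)), (∀ h ∈ H, h ∈ A) ∧
      (∀ h ∈ H, ∀ h' ∈ H, h ≠ h' → h - h' ∉ (c / 8 * 2 ^ j) • B) ∧
      ∏ l ∈ Finset.range m, cov A (mix c (j + r * l) A B) ≤ H.card := by
  classical
  induction m generalizing j with
  | zero =>
    refine ⟨{0}, ?_, ?_, ?_⟩
    · intro h hh
      rw [Finset.mem_singleton] at hh
      subst hh
      exact zero_mem hA
    · intro h hh h' hh' hne
      rw [Finset.mem_singleton] at hh hh'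
      exact absurd (hh.trans hh'.symm) hne
    · simp
  | succ m ih =>
    obtain ⟨G, hGA, hGsep, hGcard⟩ := exists_sep hA.compact (mix_body hA hB hc j)
    obtain ⟨H, hHA, hHsep, hHcard⟩ := ih (j + r)
    -- separation of pairs
    have hkey : ∀ g ∈ G, ∀ h ∈ H, ∀ g' ∈ G, ∀ h' ∈ H, (g, h) ≠ (g', h') →
        (((1 : ℝ) / 2) • g + (c / 32) • h) - (((1 : ℝ) / 2) • g' + (c / 32) • h')
          ∉ (c / 8 * 2 ^ j) • B := by
      rintro g hg h hh g' hg' h' hh' hne ⟨b, hb, hbe⟩
      simp only at hbe
      by_cases hgg : g = g'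
      · subst hgg
        have hhh : h ≠ h' := fun e => hne (by rw [e])
        refine hHsep h hh h' hh' hhh ?_
        have ht : |32 / (c * 2 ^ r)| ≤ 1 := by
          rw [abs_of_pos (by positivity), div_le_one (by positivity)]
          nlinarith [hr]
        refine ⟨(32 / (c * 2 ^ r)) • b, smul_mem hB hb ht, ?_⟩
        have e3 : (c / 32) • (h - h') = (c / 8 * 2 ^ j) • b := by
          rw [hbe]
          module
        have e4 : h - h' = (32 / c) • ((c / 8 * (2 : ℝ) ^ j) • b) := by
          rw [← e3, smul_smul]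
          have h1 : (32 / c) * (c / 32) = 1 := by field_simp
          rw [h1, one_smul]
        simp only
        rw [e4, smul_smul, smul_smul]
        congr 1
        rw [pow_add]
        field_simp
      · refine hGsep g hg g' hg' hgg ?_
        refine ⟨b, hb, (1 / 2 : ℝ) • h' + (1 / 2 : ℝ) • (-h),
          hA.convex (hHA h' hh') (hA.symm h (hHA h hh)) (by norm_num) (by norm_num)
            (by norm_num), ?_⟩
        have e3 : (c / 4 * 2 ^ j) • b = (2 : ℝ) • ((c / 8 * (2 : ℝ) ^ j) • b) := by
          rw [smul_smul]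
          congr 1
          ring
        rw [e3, hbe]
        module
    have hinj : Set.InjOn (fun p : EuclideanSpace ℝ (Fin n) × EuclideanSpace ℝ (Fin n) =>
        ((1 : ℝ) / 2) • p.1 + (c / 32) • p.2) ((G ×ˢ H : Finset _) : Set _) := by
      rintro ⟨g, h⟩ hp ⟨g', h'⟩ hp' heq
      rw [Finset.mem_coe, Finset.mem_product] at hp hp'
      by_contra hne
      refine hkey g hp.1 h hp.2 g' hp'.1 h' hp'.2 hne ?_
      simp only at heq
      rw [heq, sub_self]
      exact ⟨0, zero_mem hB, smul_zero _⟩
    refine ⟨(G ×ˢ H).image (fun p => ((1 : ℝ) / 2) • p.1 + (c / 32) • p.2), ?_, ?_, ?_⟩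
    · intro x hx
      rw [Finset.mem_image] at hx
      obtain ⟨⟨g, h⟩, hp, rfl⟩ := hx
      rw [Finset.mem_product] at hp
      have hhA : (c / 16) • h ∈ A := by
        refine smul_mem hA (hHA h hp.2) ?_
        rw [abs_of_pos (by positivity)]
        linarith
      have h2 := hA.convex (hGA g hp.1) hhA (by norm_num : (0 : ℝ) ≤ 1 / 2)
        (by norm_num : (0 : ℝ) ≤ 1 / 2) (by norm_num)
      have h3 : ((1 : ℝ) / 2) • g + (c / 32) • h
          = (1 / 2 : ℝ) • g + (1 / 2 : ℝ) • (c / 16) • h := by
        module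
      simp only
      rw [h3]
      exact h2
    · intro x hx y hy hne
      rw [Finset.mem_image] at hx hy
      obtain ⟨⟨g, h⟩, hp, rfl⟩ := hx
      obtain ⟨⟨g', h'⟩, hp', rfl⟩ := hy
      rw [Finset.mem_product] at hp hp'
      refine hkey g hp.1 h hp.2 g' hp'.1 h' hp'.2 ?_
      intro e
      apply hne
      rw [e]
    · rw [Finset.card_image_of_injOn hinj, Finset.card_product, Finset.prod_range_succ',
        mul_comm G.card]
      refine Nat.mul_le_mul ?_ ?_
      · refine le_trans (le_of_eq ?_) hHcard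
        refine Finset.prod_congr rfl fun l _ => ?_
        congr 2
        ring
      · simpa using hGcard

theorem superposeB {A B : Set (EuclideanSpace ℝ (Fin n))} (hA : SymBody A) (hB : SymBody B)
    {c : ℝ} (hc : 0 < c) (hc1 : c ≤ 1) (r : ℕ) (hr0 : 0 < r)
    (hr : 1 ≤ (2 : ℝ) ^ r * (c / 32)) (J : ℕ) :
    ∑ j ∈ Finset.range J, Real.log (cov A (mix c j A B))
      ≤ r * Real.log (cov A ((c / 16) • B)) := by
  have hA0 : A.Nonempty := ⟨0, zero_mem hA⟩
  have hone : ∀ j, 1 ≤ cov A (mix c j A B) := fun j =>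
    one_le_cov hA.compact hA0 (mix_body hA hB hc j)
  have hlog : ∀ j, 0 ≤ Real.log (cov A (mix c j A B)) := fun j =>
    Real.log_nonneg (by exact_mod_cast hone j)
  have hB' : SymBody ((c / 16) • B) := body_smul hB (by positivity)
  calc ∑ j ∈ Finset.range J, Real.log (cov A (mix c j A B))
      ≤ ∑ j ∈ Finset.range (r * J), Real.log (cov A (mix c j A B)) := by
        refine Finset.sum_le_sum_of_subset_of_nonneg ?_ (fun j _ _ => hlog j)
        intro j hj
        rw [Finset.mem_range] at hj ⊢
        exact lt_of_lt_of_le hj (Nat.le_mul_of_pos_left J hr0)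
    _ = ∑ ρ ∈ Finset.range r, ∑ l ∈ Finset.range J,
          Real.log (cov A (mix c (ρ + r * l) A B)) :=
        sum_range_residue (fun j => Real.log (cov A (mix c j A B))) r J
    _ ≤ ∑ _ρ ∈ Finset.range r, Real.log (cov A ((c / 16) • B)) := by
        refine Finset.sum_le_sum fun ρ _ => ?_
        obtain ⟨H, hHA, hHsep, hHcard⟩ := superposeB_chain hA hB hc hc1 r hr J ρ
        have hle : H.card ≤ cov A ((c / 16) • B) := by
          refine sep_card_le (B := (c / 8 * 2 ^ ρ) • B) hA.compact hB' ?_ hHA hHsep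
          rintro u ⟨b, hb, rfl⟩ v ⟨b', hb', rfl⟩
          have hpow : (1 : ℝ) ≤ 2 ^ ρ := one_le_pow₀ (by norm_num)
          refine ⟨(1 / 2 ^ ρ : ℝ) • ((1 / 2 : ℝ) • b + (1 / 2 : ℝ) • (-b')),
            smul_mem hB (hB.convex hb (hB.symm b' hb') (by norm_num) (by norm_num)
              (by norm_num)) ?_, ?_⟩
          · rw [abs_of_pos (by positivity), div_le_one (by positivity)]
            exact hpow
          · simp only
            rw [smul_smul]
            have e1 : c / 8 * (2 : ℝ) ^ ρ * (1 / 2 ^ ρ) = c / 8 := by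
              field_simp
            rw [e1]
            module
        have hprod : (∏ l ∈ Finset.range J, (cov A (mix c (ρ + r * l) A B) : ℝ))
            ≤ (cov A ((c / 16) • B) : ℝ) := by
          have := hHcard.trans hle
          exact_mod_cast this
        have hpos : ∀ l ∈ Finset.range J, (cov A (mix c (ρ + r * l) A B) : ℝ) ≠ 0 := by
          intro l _
          have h1 := hone (ρ + r * l)
          have h2 : (1 : ℝ) ≤ (cov A (mix c (ρ + r * l) A B) : ℝ) := by exact_mod_cast h1
          linarith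
        rw [← Real.log_prod hpos]
        refine Real.log_le_log ?_ hprod
        refine Finset.prod_pos fun l _ => ?_
        have h1 := hone (ρ + r * l)
        have h2 : (1 : ℝ) ≤ (cov A (mix c (ρ + r * l) A B) : ℝ) := by exact_mod_cast h1
        linarith
    _ = r * Real.log (cov A ((c / 16) • B)) := by
        rw [Finset.sum_const, Finset.card_range, nsmul_eq_mul]

end P126
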