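import Vale.Agent.Lib.P126.QuantA
import Vale.Agent.Lib.P126.SuperposeB
import Vale.Agent.Lib.P126.Power

/-!
P126: quantitative version of `propA` and `one_sided`.
-/

namespace P126

open Pointwise

theorem propB (T : ℕ) (hT : 2 ≤ T) (n : ℕ) (K L : Set (EuclideanSpace ℝ (Fin n)))
    (hK : SymBody K) (hL : SymBody L) (hKL : K ⊆ (4 : ℝ) • L) :
    Real.log (cov K L) ≤
      (77824 * T * Real.log (cov (polar L) ((1 / (48 * (T : ℝ))) • polar K))) ^
        ((T : ℝ) / ((T : ℝ) - 1)) := by
  have hT2 : (2 : ℝ) ≤ T := by exact_mod_cast hT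
  have hs : (0 : ℝ) < (T : ℝ) / ((T : ℝ) - 1) := by
    apply div_pos <;> linarith
  set N : ℕ := cov (polar L) ((1 / (48 * (T : ℝ))) • polar K) with hN
  have hc0 : (0 : ℝ) < 1 / (48 * (T : ℝ)) := by positivity
  have hc1 : 1 / (48 * (T : ℝ)) ≤ 1 := by
    rw [div_le_one (by positivity)]
    linarith
  have hN1 : 1 ≤ N := one_le_cov (polar_body hL).compact ⟨0, zero_mem (polar_body hL)⟩
    (body_smul (polar_body hK) hc0)
  rcases Nat.eq_or_lt_of_le hN1 with hNe | hNlt
  · have h1 : cov K L = 1 := PropA_trivial hK hL hc0 hc1 hNe.symm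
    rw [h1, ← hNe]
    simp [Real.zero_rpow hs.ne']
  · obtain ⟨E, _, _, _, φ, hφ, hf⟩ := exists_norm hL
    obtain ⟨X₀, hX₀K, hX₀sep, hX₀card⟩ := exists_sep hK.compact hL
    have hcov1 : 1 ≤ cov K L := one_le_cov hK.compact ⟨0, zero_mem hK⟩ hL
    have hNr : (1 : ℝ) ≤ N := by exact_mod_cast hN1
    have hN2r : (2 : ℝ) ≤ N := by exact_mod_cast hNlt
    have hlogN : Real.log 2 ≤ Real.log N := Real.log_le_log (by norm_num) hN2r
    have hcardlog : Real.log (cov K L) ≤ Real.log X₀.card := by
      apply Real.log_le_log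
      · exact_mod_cast hcov1
      · exact_mod_cast hX₀card
    refine hcardlog.trans ?_
    refine quant_real T hT _ _ hlogN ?_
    intro T' c hT'1 hT'T hcpos hcT
    have hT'r : (1 : ℝ) ≤ T' := by exact_mod_cast hT'1
    have hT'Tr : (T' : ℝ) ≤ T := by exact_mod_cast hT'T
    have hc'0 : (0 : ℝ) < 1 / (48 * (T' : ℝ)) := by positivity
    set N' : ℕ := cov (polar L) ((1 / (48 * (T' : ℝ))) • polar K) with hN'
    have hN'1 : 1 ≤ N' := one_le_cov (polar_body hL).compact ⟨0, zero_mem (polar_body hL)⟩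
      (body_smul (polar_body hK) hc'0)
    have hN'N : N' ≤ N := by
      refine cov_mono_right (polar_body hL).compact (body_smul (polar_body hK) hc0) ?_
      rintro x ⟨y, hy, rfl⟩
      have hle : 1 / (48 * (T : ℝ)) ≤ 1 / (48 * (T' : ℝ)) := by
        apply one_div_le_one_div_of_le (by positivity)
        linarith
      refine ⟨((1 / (48 * (T : ℝ))) / (1 / (48 * (T' : ℝ)))) • y,
        smul_mem (polar_body hK) hy ?_, ?_⟩
      · rw [abs_of_pos (by positivity), div_le_one hc'0]
        exact hle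
      · simp only
        rw [smul_smul, mul_div_cancel₀ _ hc'0.ne']
    have hno := PropA_noCode hK hL hKL T' hT'1 φ hf
    set M : ℕ := (128 * T' + 1) * N' with hM
    have h1 := iterate (φ '' K) (hK.convex.is_linear_image φ.isLinear) (by
        rintro _ ⟨k, hk, rfl⟩
        obtain ⟨l, hl, rfl⟩ := hKL hk
        have h2 := (hφ l).mp hl
        simp only [map_smul, norm_smul]
        rw [Real.norm_of_nonneg (by norm_num)]
        linarith) (X₀.map φ.toEquiv.toEmbedding) (by
        intro x hx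
        rw [Finset.mem_map] at hx
        obtain ⟨k, hk, rfl⟩ := hx
        exact ⟨k, hX₀K k hk, rfl⟩) (by
        rw [Finset.map_nonempty, ← Finset.card_pos]
        omega) (by
        intro x hx y hy hxy
        rw [Finset.mem_map] at hx hy
        obtain ⟨a, ha, rfl⟩ := hx
        obtain ⟨b, hb, rfl⟩ := hy
        have hab : a ≠ b := fun h => hxy (by rw [h])
        have h2 := hX₀sep a ha b hb hab
        rw [hφ, not_le, map_sub] at h2
        exact h2) T' hT'1 (c := c) hcpos (by
        rw [Finset.card_map, div_le_iff₀ (by positivity)]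
        linarith) M hno
    rw [Finset.card_map] at h1
    refine h1.trans ?_
    have hN'r : (1 : ℝ) ≤ N' := by exact_mod_cast hN'1
    have hMN : (2 * (M : ℝ) + 2) ≤ (256 * T' + 4) * N' := by
      rw [hM]
      push_cast
      nlinarith
    have hM0 : (0 : ℝ) ≤ M := Nat.cast_nonneg M
    have h4 : Real.log (2 * M + 2) ≤ Real.log (256 * T' + 4) + Real.log N := by
      rw [← Real.log_mul (by positivity) (by positivity)]
      apply Real.log_le_log (by positivity)
      refine hMN.trans ?_
      have : (N' : ℝ) ≤ N := by exact_mod_cast hN'N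
      gcongr
    have h5 : c * (2 + Real.log (2 * M + 2)) + Real.log 2 ≤
        c * (2 + Real.log (256 * T' + 4) + Real.log N) + Real.log 2 := by
      have : c * (2 + Real.log (2 * M + 2)) ≤
          c * (2 + Real.log (256 * T' + 4) + Real.log N) :=
        mul_le_mul_of_nonneg_left (by linarith) hcpos.le
      linarith
    exact mul_le_mul_of_nonneg_left h5 (by linarith)

/-- The number of scales that interact. -/
theorem quant_r (T : ℕ) (hT : 2 ≤ T) : ∃ r : ℕ, 0 < r ∧
    1 ≤ (2 : ℝ) ^ r * ((1 / (48 * (T : ℝ))) / 32) ∧ (r : ℝ) ≤ 12 * (1 + Real.log T) := by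
  have hT2 : (2 : ℝ) ≤ T := by exact_mod_cast hT
  have hl2 : (0.6931471803 : ℝ) < Real.log 2 := Real.log_two_gt_d9
  have hl2' : Real.log 2 < 0.6931471808 := Real.log_two_lt_d9
  have hlT : 0 ≤ Real.log T := Real.log_nonneg (by linarith)
  have hex : ∃ r : ℕ, 1536 * (T : ℝ) ≤ 2 ^ r := by
    obtain ⟨r, hr⟩ := pow_unbounded_of_one_lt (1536 * (T : ℝ)) (by norm_num : (1 : ℝ) < 2)
    exact ⟨r, hr.le⟩
  classical
  have hs := Nat.find_spec hex
  have hpos : 0 < Nat.find hex := by
    by_contra h
    have h0 : Nat.find hex = 0 := by omega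
    rw [h0] at hs
    norm_num at hs
    linarith
  refine ⟨Nat.find hex, hpos, ?_, ?_⟩
  · have h3 : (2 : ℝ) ^ Nat.find hex * ((1 / (48 * (T : ℝ))) / 32) =
        2 ^ Nat.find hex / (1536 * T) := by
      field_simp
      ring
    rw [h3, le_div_iff₀ (by positivity)]
    linarith
  · have h4 := Nat.find_min hex (m := Nat.find hex - 1) (by omega)
    rw [not_le] at h4
    have h5 : Real.log ((2 : ℝ) ^ (Nat.find hex - 1)) ≤ Real.log (1536 * T) :=
      Real.log_le_log (by positivity) h4.le
    rw [Real.log_pow, Real.log_mul (by norm_num) (by linarith), Nat.cast_sub (by omega),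
      Nat.cast_one] at h5
    have h6 : Real.log 1536 ≤ 11 * Real.log 2 := by
      rw [← Real.log_rpow (by norm_num)]
      apply Real.log_le_log (by norm_num)
      norm_num
    nlinarith

theorem one_sided_B (T : ℕ) (hT : 2 ≤ T) (n : ℕ) (K L : Set (EuclideanSpace ℝ (Fin n)))
    (hK : SymBody K) (hL : SymBody L) :
    Real.log (cov K L) ≤
      (933888 * T * (1 + Real.log T) *
        Real.log (cov (polar L) ((768 * (T : ℝ))⁻¹ • polar K))) ^
        ((T : ℝ) / ((T : ℝ) - 1)) := by
  have hT' : (2 : ℝ) ≤ T := by exact_mod_cast hT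
  set c : ℝ := 1 / (48 * (T : ℝ)) with hcdef
  have hc0 : 0 < c := by positivity
  have hc1 : c ≤ 1 := by
    rw [hcdef, div_le_one (by positivity)]
    linarith
  set s : ℝ := (T : ℝ) / ((T : ℝ) - 1) with hsdef
  have hs1 : 1 ≤ s := by
    rw [hsdef, le_div_iff₀ (by linarith)]
    linarith
  obtain ⟨r, hr0, hr1, hrle⟩ := quant_r T hT
  have hr0' : (1 : ℝ) ≤ r := by exact_mod_cast hr0
  have haeq : (768 * (T : ℝ))⁻¹ = c / 16 := by
    rw [hcdef]
    have hT0 : (0 : ℝ) < T := by linarith
    field_simp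
    norm_num
  rw [haeq]
  obtain ⟨J, hJ⟩ := telescope hK hL
  have hpL : SymBody (polar L) := polar_body hL
  have hpK : SymBody (polar K) := polar_body hK
  set f : ℕ → ℝ := fun j => Real.log (cov (polar L) (mix c j (polar L) (polar K))) with hf
  have hf0 : ∀ j, 0 ≤ f j := fun j => Real.log_natCast_nonneg _
  have hg0 : ∀ j, 0 ≤ 77824 * T * f j := fun j => by
    have := hf0 j
    positivity
  have hstep : ∀ j ∈ Finset.range J,
      Real.log (cov (((2 : ℝ) • K) ∩ ((4 * (2 : ℝ) ^ j) • L)) (((2 : ℝ) ^ j) • L)) ≤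
        (77824 * T * f j) ^ s := by
    intro j _
    have h2j : (0 : ℝ) < 2 ^ j := by positivity
    have hKj : SymBody (((2 : ℝ) • K) ∩ ((4 * (2 : ℝ) ^ j) • L)) :=
      body_inter (body_smul hK (by norm_num)) (body_smul hL (by positivity))
    have hLj : SymBody (((2 : ℝ) ^ j) • L) := body_smul hL h2j
    have hsub : ((2 : ℝ) • K) ∩ ((4 * (2 : ℝ) ^ j) • L) ⊆ (4 : ℝ) • (((2 : ℝ) ^ j) • L) := by
      rw [smul_smul]
      exact Set.inter_subset_right
    refine (propB T hT n _ _ hKj hLj hsub).trans ?_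
    refine Real.rpow_le_rpow ?_ ?_ (by linarith)
    · exact mul_nonneg (by positivity) (Real.log_natCast_nonneg _)
    · exact mul_le_mul_of_nonneg_left (power_key hK hL hc0 j) (by positivity)
  have hsup := superposeB hpL hpK hc0 hc1 r hr0 hr1 J
  set X : ℝ := Real.log (cov (polar L) ((c / 16) • polar K)) with hX
  have hX0 : 0 ≤ X := Real.log_natCast_nonneg _
  calc Real.log (cov K L) ≤ ∑ j ∈ Finset.range J, (77824 * T * f j) ^ s :=
        hJ.trans (Finset.sum_le_sum hstep)
    _ ≤ (∑ j ∈ Finset.range J, 77824 * T * f j) ^ s :=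
        power_sum_rpow s hs1 J (fun j => 77824 * T * f j) hg0
    _ ≤ (933888 * T * (1 + Real.log T) * X) ^ s := by
        refine Real.rpow_le_rpow (Finset.sum_nonneg fun j _ => hg0 j) ?_ (by linarith)
        rw [← Finset.mul_sum]
        calc 77824 * (T : ℝ) * ∑ j ∈ Finset.range J, f j ≤ 77824 * T * (r * X) := by
              gcongr
          _ ≤ 77824 * T * (12 * (1 + Real.log T) * X) := by
              gcongr
          _ = _ := by ring

end P126
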