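import Vale.Agent.Lib.P126.QuantB

/-!
P126: quantitative duality theorems.
-/

namespace P126

open Pointwise

theorem cov_radius_mono {n : ℕ} {K L : Set (EuclideanSpace ℝ (Fin n))} (hK : SymBody K)
    (hL : SymBody L) {s t : ℝ} (hs : 0 < s) (hst : s ≤ t) : cov K (t • L) ≤ cov K (s • L) := by
  have ht : 0 < t := by linarith
  refine cov_mono_right hK.compact (body_smul hL hs) ?_
  rintro x ⟨y, hy, rfl⟩
  refine ⟨(s / t) • y, smul_mem hL hy ?_, ?_⟩
  · rw [abs_of_pos (by positivity), div_le_one ht]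
    exact hst
  · simp only
    rw [smul_smul, mul_div_cancel₀ _ ht.ne']

theorem quant_T (ε : ℝ) (hε : 0 < ε) (hε1 : ε ≤ 1) : ∃ T : ℕ, 2 ≤ T ∧
    (T : ℝ) / ((T : ℝ) - 1) ≤ 1 + ε ∧ (T : ℝ) ≤ 3 / ε := by
  refine ⟨⌈1 / ε⌉₊ + 1, ?_, ?_, ?_⟩
  · have : 0 < ⌈1 / ε⌉₊ := Nat.ceil_pos.2 (by positivity)
    omega
  · have h1 : 1 / ε ≤ (⌈1 / ε⌉₊ : ℝ) := Nat.le_ceil _
    have h2 : 0 < (⌈1 / ε⌉₊ : ℝ) := lt_of_lt_of_le (by positivity) h1
    push_cast
    rw [add_sub_cancel_right, div_le_iff₀ h2]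
    rw [div_le_iff₀ hε] at h1
    linarith
  · have h1 : (⌈1 / ε⌉₊ : ℝ) < 1 / ε + 1 := Nat.ceil_lt_add_one (by positivity)
    have h2 : 1 ≤ 1 / ε := by
      rw [le_div_iff₀ hε]
      linarith
    push_cast
    have h3 : 3 / ε = 3 * (1 / ε) := by ring
    rw [h3]
    linarith

theorem quant_Q (T : ℕ) (hT : 2 ≤ T) :
    (933888 * T * (1 + Real.log T)) ^ ((T : ℝ) / ((T : ℝ) - 1)) ≤
      3735552 * (933888 * T * (1 + Real.log T)) := by
  have hT2 : (2 : ℝ) ≤ T := by exact_mod_cast hT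
  have hlT : 0 ≤ Real.log T := Real.log_nonneg (by linarith)
  have hlT2 : 1 + Real.log T ≤ T := by
    have := Real.log_le_sub_one_of_pos (by linarith : (0 : ℝ) < T)
    linarith
  set Q : ℝ := 933888 * T * (1 + Real.log T) with hQ
  have hQ0 : 0 < Q := by positivity
  have h1 : (T : ℝ) / ((T : ℝ) - 1) = 1 + ((T - 1 : ℕ) : ℝ)⁻¹ := by
    rw [Nat.cast_sub (by omega), Nat.cast_one]
    have : (T : ℝ) - 1 ≠ 0 := by
      have : (0 : ℝ) < T - 1 := by linarith
      exact this.ne'
    field_simp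
    ring
  rw [h1, Real.rpow_add hQ0, Real.rpow_one, mul_comm]
  refine mul_le_mul_of_nonneg_right ?_ hQ0.le
  have h2 : (T : ℝ) ≤ 2 ^ (T - 1) := by
    have : T - 1 < 2 ^ (T - 1) := Nat.lt_two_pow_self
    have h3 : T ≤ 2 ^ (T - 1) := by omega
    exact_mod_cast h3
  have h3 : Q ≤ 3735552 ^ (T - 1) := by
    calc Q ≤ 933888 * T * T := by
          rw [hQ]
          gcongr
      _ ≤ 933888 * 2 ^ (T - 1) * 2 ^ (T - 1) := by
          gcongr
      _ ≤ 933888 ^ (T - 1) * 2 ^ (T - 1) * 2 ^ (T - 1) := by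
          gcongr
          exact le_self_pow₀ (by norm_num) (by omega)
      _ = 3735552 ^ (T - 1) := by
          rw [← mul_pow, ← mul_pow]
          norm_num
  calc Q ^ (((T - 1 : ℕ) : ℝ)⁻¹) ≤ ((3735552 : ℝ) ^ (T - 1)) ^ (((T - 1 : ℕ) : ℝ)⁻¹) :=
        Real.rpow_le_rpow hQ0.le h3 (by positivity)
    _ = 3735552 := Real.pow_rpow_inv_natCast (by norm_num) (by omega)

theorem quant_X (N : ℕ) (s ε : ℝ) (hs : 1 ≤ s) (hsε : s ≤ 1 + ε) (hε1 : ε ≤ 1) (hε : 0 < ε) :
    (Real.log N) ^ s ≤ 2 * (Real.log N) ^ (1 + ε) := by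
  by_cases hN : N ≤ 1
  · have h0 : Real.log N = 0 := by
      interval_cases N <;> simp
    rw [h0, Real.zero_rpow (by linarith), Real.zero_rpow (by linarith)]
    simp
  · rw [not_le] at hN
    have hl2 : (0.6931471803 : ℝ) < Real.log 2 := Real.log_two_gt_d9
    have hl2' : Real.log 2 < 0.6931471808 := Real.log_two_lt_d9
    have h1 : Real.log 2 ≤ Real.log N := by
      apply Real.log_le_log (by norm_num)
      exact_mod_cast hN
    have h2 : 0 < Real.log N := by linarith
    have h3 : (Real.log N) ^ s = (Real.log N) ^ (s - (1 + ε)) * (Real.log N) ^ (1 + ε) := by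
      rw [← Real.rpow_add h2]
      congr 1
      ring
    rw [h3]
    refine mul_le_mul_of_nonneg_right ?_ (Real.rpow_nonneg h2.le _)
    calc (Real.log N) ^ (s - (1 + ε)) ≤ (Real.log 2) ^ (s - (1 + ε)) :=
          Real.rpow_le_rpow_of_nonpos (by linarith) h1 (by linarith)
      _ ≤ (Real.log 2) ^ (-1 : ℝ) :=
          Real.rpow_le_rpow_of_exponent_ge (by linarith) (by linarith) (by linarith)
      _ = (Real.log 2)⁻¹ := Real.rpow_neg_one _
      _ ≤ 2 := by
          rw [inv_le_comm₀ (by linarith) (by norm_num)]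
          norm_num
          linarith

theorem quant_first (C : ℝ) (hC : 10 ^ 14 ≤ C) (ε : ℝ) (hε : 0 < ε) (hε1 : ε ≤ 1) (n : ℕ)
    (K L : Set (EuclideanSpace ℝ (Fin n))) (hK : SymBody K) (hL : SymBody L) :
    Real.log (cov K L) ≤ (C / ε) * (1 + Real.log (1 / ε)) *
      (Real.log (cov (polar L) ((C / ε)⁻¹ • polar K))) ^ (1 + ε) := by
  have hC0 : 0 < C := lt_of_lt_of_le (by norm_num) hC
  obtain ⟨T, hT, hTs, hTε⟩ := quant_T ε hε hε1
  have hT2 : (2 : ℝ) ≤ T := by exact_mod_cast hT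
  have hs1 : 1 ≤ (T : ℝ) / ((T : ℝ) - 1) := by
    rw [le_div_iff₀ (by linarith)]
    linarith
  have hlT : 0 ≤ Real.log T := Real.log_nonneg (by linarith)
  have h1 := one_sided_B T hT n K L hK hL
  set N : ℕ := cov (polar L) ((768 * (T : ℝ))⁻¹ • polar K) with hN
  set N' : ℕ := cov (polar L) ((C / ε)⁻¹ • polar K) with hN'
  have hNN : N ≤ N' := by
    refine cov_radius_mono (polar_body hL) (polar_body hK) (by positivity) ?_
    apply inv_anti₀ (by positivity)
    calc 768 * (T : ℝ) ≤ 768 * (3 / ε) := by gcongr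
      _ = 2304 / ε := by ring
      _ ≤ C / ε := by
        gcongr
        linarith
  have hN1 : 1 ≤ N := one_le_cov (polar_body hL).compact ⟨0, zero_mem (polar_body hL)⟩
    (body_smul (polar_body hK) (by positivity))
  have hlN : 0 ≤ Real.log N := Real.log_natCast_nonneg _
  have hlNN : Real.log N ≤ Real.log N' := by
    apply Real.log_le_log
    · exact_mod_cast hN1
    · exact_mod_cast hNN
  have hlε : 0 ≤ Real.log (1 / ε) := by
    apply Real.log_nonneg
    rw [le_div_iff₀ hε]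
    linarith
  have hlog : 1 + Real.log T ≤ 3 * (1 + Real.log (1 / ε)) := by
    have h3 : Real.log T ≤ Real.log (3 / ε) := Real.log_le_log (by linarith) hTε
    have h4 : (3 : ℝ) / ε = 3 * (1 / ε) := by ring
    rw [h4, Real.log_mul (by norm_num) (by positivity)] at h3
    have h5 : Real.log 3 ≤ 2 := by
      have := Real.log_le_sub_one_of_pos (by norm_num : (0 : ℝ) < 3)
      linarith
    linarith
  have hQpos : 0 ≤ 933888 * T * (1 + Real.log T) := by positivity
  calc Real.log (cov K L) ≤ (933888 * T * (1 + Real.log T) * Real.log N) ^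
        ((T : ℝ) / ((T : ℝ) - 1)) := h1
    _ = (933888 * T * (1 + Real.log T)) ^ ((T : ℝ) / ((T : ℝ) - 1)) *
        (Real.log N) ^ ((T : ℝ) / ((T : ℝ) - 1)) := Real.mul_rpow hQpos hlN
    _ ≤ (3735552 * (933888 * T * (1 + Real.log T))) * (2 * (Real.log N') ^ (1 + ε)) := by
        refine mul_le_mul (quant_Q T hT) ?_ (Real.rpow_nonneg hlN _) (by positivity)
        refine (quant_X N _ ε hs1 hTs hε1 hε).trans ?_
        refine mul_le_mul_of_nonneg_left ?_ (by norm_num)
        exact Real.rpow_le_rpow hlN hlNN (by linarith)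
    _ = (7471104 * 933888 * (T * (1 + Real.log T))) * (Real.log N') ^ (1 + ε) := by ring
    _ ≤ (C / ε) * (1 + Real.log (1 / ε)) * (Real.log N') ^ (1 + ε) := by
        refine mul_le_mul_of_nonneg_right ?_ (Real.rpow_nonneg (hlN.trans hlNN) _)
        calc 7471104 * 933888 * ((T : ℝ) * (1 + Real.log T)) ≤
            7471104 * 933888 * ((3 / ε) * (3 * (1 + Real.log (1 / ε)))) := by
              gcongr
          _ = (7471104 * 933888 * 9) / ε * (1 + Real.log (1 / ε)) := by ring
          _ ≤ _ := by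
              gcongr
              linarith

/-- Duality up to a power `1 + ε`, with the linear dependence `C / ε` (up to a logarithm) on
both constants. -/
theorem quant_power (C : ℝ) (hC : 10 ^ 14 ≤ C) (ε : ℝ) (hε : 0 < ε) (hε1 : ε ≤ 1) (n : ℕ)
    (K L : Set (EuclideanSpace ℝ (Fin n))) (hK : SymBody K) (hL : SymBody L) :
    Real.log (cov K L) ≤ (C / ε) * (1 + Real.log (1 / ε)) *
      (Real.log (cov (polar L) ((C / ε)⁻¹ • polar K))) ^ (1 + ε) ∧
    Real.log (cov (polar L) ((C / ε) • polar K)) ≤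
      (C / ε) * (1 + Real.log (1 / ε)) * (Real.log (cov K L)) ^ (1 + ε) := by
  have hC0 : 0 < C := lt_of_lt_of_le (by norm_num) hC
  refine ⟨quant_first C hC ε hε hε1 n K L hK hL, ?_⟩
  have ha0 : (0 : ℝ) < C / ε := by positivity
  have h := quant_first C hC ε hε hε1 n (polar L) ((C / ε) • polar K) (polar_body hL)
    (body_smul (polar_body hK) ha0)
  rw [polar_smul ha0, bipolar hK, bipolar hL, cov_smul (inv_pos.2 ha0)] at h
  exact h

/-- Duality up to factors that are doubly logarithmic in the covering number. -/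
theorem quant_loglog (n : ℕ)
    (K L : Set (EuclideanSpace ℝ (Fin n))) (hK : SymBody K) (hL : SymBody L) (Λ : ℝ)
    (hΛ : Λ = 1 + Real.log (1 + Real.log (cov K L))) :
    Real.log (cov K L) ≤ (3 * 10 ^ 14) * Λ * (1 + Real.log Λ) *
      Real.log (cov (polar L) ((3 * 10 ^ 14 * Λ)⁻¹ • polar K)) ∧
    Real.log (cov (polar L) ((3 * 10 ^ 14 * Λ) • polar K)) ≤
      (3 * 10 ^ 14) * Λ * (1 + Real.log Λ) * Real.log (cov K L) := by
  set h : ℝ := Real.log (cov K L) with hh
  have hh0 : 0 ≤ h := Real.log_natCast_nonneg _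
  have hl0 : 0 ≤ Real.log (1 + h) := Real.log_nonneg (by linarith)
  have hΛ1 : 1 ≤ Λ := by linarith
  have hΛ0 : 0 < Λ := by linarith
  have hlΛ : 0 ≤ Real.log Λ := Real.log_nonneg hΛ1
  have hpow : ∀ x : ℝ, 0 ≤ x → x ≤ h → x ^ (1 + 1 / Λ) ≤ 3 * x := by
    intro x hx hxh
    rcases hx.eq_or_lt with h0 | h0
    · rw [← h0, Real.zero_rpow (by positivity)]
      simp
    · rw [Real.rpow_add h0, Real.rpow_one, mul_comm]
      refine mul_le_mul_of_nonneg_right ?_ hx
      calc x ^ (1 / Λ) ≤ (1 + h) ^ (1 / Λ) :=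
            Real.rpow_le_rpow hx (by linarith) (by positivity)
        _ = Real.exp (Real.log (1 + h) * (1 / Λ)) := Real.rpow_def_of_pos (by linarith) _
        _ ≤ Real.exp 1 := by
            rw [Real.exp_le_exp, mul_one_div, div_le_one hΛ0]
            linarith
        _ ≤ 3 := by
            have := Real.exp_one_lt_d9
            linarith
  obtain ⟨h1, h2⟩ := quant_power (10 ^ 14) le_rfl (1 / Λ) (by positivity) (by
    rw [div_le_one hΛ0]
    exact hΛ1) n K L hK hL
  have e1 : (10 : ℝ) ^ 14 / (1 / Λ) = 10 ^ 14 * Λ := by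
    field_simp
  have e2 : (1 : ℝ) / (1 / Λ) = Λ := by
    field_simp
  rw [e1, e2] at h1 h2
  constructor
  · have hmono : Real.log (cov (polar L) ((10 ^ 14 * Λ)⁻¹ • polar K)) ≤
        Real.log (cov (polar L) ((3 * 10 ^ 14 * Λ)⁻¹ • polar K)) := by
      apply Real.log_le_log
      · have := one_le_cov (polar_body hL).compact ⟨0, zero_mem (polar_body hL)⟩
          (body_smul (polar_body hK) (by positivity : (0 : ℝ) < (10 ^ 14 * Λ)⁻¹))
        exact_mod_cast this
      · have := cov_radius_mono (polar_body hL) (polar_body hK)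
          (by positivity : (0 : ℝ) < (3 * 10 ^ 14 * Λ)⁻¹)
          (by
            apply inv_anti₀ (by positivity)
            nlinarith : (3 * 10 ^ 14 * Λ)⁻¹ ≤ (10 ^ 14 * Λ)⁻¹)
        exact_mod_cast this
    set H : ℝ := Real.log (cov (polar L) ((10 ^ 14 * Λ)⁻¹ • polar K)) with hH
    have hH0 : 0 ≤ H := Real.log_natCast_nonneg _
    have hfin : h ≤ (3 * 10 ^ 14) * Λ * (1 + Real.log Λ) * H := by
      rcases le_total H h with hle | hle
      · calc h ≤ 10 ^ 14 * Λ * (1 + Real.log Λ) * H ^ (1 + 1 / Λ) := h1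
          _ ≤ 10 ^ 14 * Λ * (1 + Real.log Λ) * (3 * H) := by
              refine mul_le_mul_of_nonneg_left (hpow H hH0 hle) (by positivity)
          _ = _ := by ring
      · have h3 : 1 ≤ (3 * 10 ^ 14) * Λ * (1 + Real.log Λ) := by
          have : 1 ≤ Λ * (1 + Real.log Λ) := by nlinarith
          nlinarith
        calc h ≤ 1 * H := by linarith
          _ ≤ _ := mul_le_mul_of_nonneg_right h3 hH0
    exact hfin.trans (mul_le_mul_of_nonneg_left hmono (by positivity))
  · have hmono : Real.log (cov (polar L) ((3 * 10 ^ 14 * Λ) • polar K)) ≤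
        Real.log (cov (polar L) ((10 ^ 14 * Λ) • polar K)) := by
      apply Real.log_le_log
      · have := one_le_cov (polar_body hL).compact ⟨0, zero_mem (polar_body hL)⟩
          (body_smul (polar_body hK) (by positivity : (0 : ℝ) < 3 * 10 ^ 14 * Λ))
        exact_mod_cast this
      · have := cov_radius_mono (polar_body hL) (polar_body hK)
          (by positivity : (0 : ℝ) < 10 ^ 14 * Λ)
          (by nlinarith : 10 ^ 14 * Λ ≤ 3 * 10 ^ 14 * Λ)
        exact_mod_cast this
    refine hmono.trans (h2.trans ?_)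
    calc 10 ^ 14 * Λ * (1 + Real.log Λ) * h ^ (1 + 1 / Λ) ≤
          10 ^ 14 * Λ * (1 + Real.log Λ) * (3 * h) := by
            refine mul_le_mul_of_nonneg_left (hpow h hh0 le_rfl) (by positivity)
      _ = _ := by ring

end P126
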