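import Vale.Agent.Lib.P126.KLbasic

/-!
P126-POW module SepRep: separate-or-represent lemma.

`E` finite dimensional normed space, `π` a probability vector on the finite type `Y`, `p : Y → E`,
`x : E`, `e ≥ 0`, `η > 0`, `d` real.  Either (R): there is `g` with
`log ∑ π y exp (g (p y)) - g x + e ‖g‖ < -d`, or (S): there is a probability vector `w` with
`w ≪ π`, `‖x - bary w p‖ ≤ e + η`, `KL w π ≤ d`.

Proof.  Suppose not (R).  Put `Φ g = log ∑ π exp (g (p y)) - g x + (e + η) ‖g‖` on the (finite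
dimensional) dual `E →L[ℝ] ℝ`.  `Φ` is continuous, `Φ 0 = 0` and `Φ g ≥ -d + η ‖g‖` for all `g`, so
`Φ` has a minimizer `g` on the closed ball of radius `|d|/η + 1` (compact), which is a global
minimizer (outside the ball `Φ > 0 = Φ 0`).
Let `Z = ∑ π exp (g (p y)) > 0`, `w y = π y exp (g (p y)) / Z`: a probability vector, `w ≪ π`, and
`KL w π = ∑ w y (g (p y) - log Z) = g (bary w p) - log Z`.  Put `v = x - bary w p`.

(a) `‖v‖ ≤ e + η`.  Let `h` be a norming functional, `‖h‖ ≤ 1`, `h v = ‖v‖`.  For `0 < t`,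
`Φ (g + t h) ≥ Φ g`.  Now `log (∑ π exp (g + t h)(p y)) - log Z = log ∑ w y exp (t h (p y))` and, with
`B = max ‖p y‖` and `t B ≤ 1`, `exp (t h(p y)) ≤ 1 + t h (p y) + t² B²`, so this is
`≤ t h (bary w p) + t² B²` (`log u ≤ u - 1`).  So
`0 ≤ Φ(g + t h) - Φ g ≤ t h (bary w p) + t² B² - t h x + (e+η) t ‖h‖ ≤ -t ‖v‖ + t² B² + (e+η) t`.
Divide by `t` and let `t → 0`.

(b) `KL w π ≤ d`.  For `0 < t ≤ 1`, `Φ ((1 - t) g) ≥ Φ g`.  Here
`log ∑ π exp ((1-t) g (p y)) - log Z = log ∑ w y exp (-t g (p y)) ≤ -t g (bary w p) + t² C²` with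
`C = max |g (p y)|`, `t C ≤ 1`.  So
`0 ≤ -t g (bary w p) + t² C² + t g x - t (e+η) ‖g‖`, so (divide by `t`, `t → 0`)
`g (bary w p) ≤ g x - (e+η) ‖g‖`.  Therefore
`KL w π = g (bary w p) - log Z ≤ g x - (e+η)‖g‖ - log Z = -Φ g ≤ d - η ‖g‖ ≤ d`.

(For (a) and (b) a clean way: a general lemma
`log ∑ w y exp (t a y) ≤ t ∑ w y a y + t² B²` for `|a y| ≤ B`, `0 ≤ t`, `t B ≤ 1`, `w` probability
vector, then `le_of_forall_pos_le_add`-type limit.)
-/

namespace P126

open Finset

variable {Y : Type*} [Fintype Y]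

theorem SepRep_Zpos {π : Y → ℝ} (hπ : IsProb π) (a : Y → ℝ) : 0 < ∑ y, π y * Real.exp (a y) := by
  obtain ⟨y0, hy0⟩ : ∃ y, 0 < π y := by
    by_contra hcon
    push Not at hcon
    have h1 : ∑ y, π y ≤ 0 := Finset.sum_nonpos fun y _ => hcon y
    rw [hπ.2] at h1
    linarith
  refine Finset.sum_pos' (fun y _ => mul_nonneg (hπ.1 y) (Real.exp_pos _).le) ?_
  exact ⟨y0, Finset.mem_univ _, mul_pos hy0 (Real.exp_pos _)⟩

/-- second order bound for the cumulant function -/
theorem SepRep_log_le {w : Y → ℝ} (hw : IsProb w) (a : Y → ℝ) {B t : ℝ} (hB : ∀ y, |a y| ≤ B)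
    (ht : 0 ≤ t) (htB : t * B ≤ 1) :
    Real.log (∑ y, w y * Real.exp (t * a y)) ≤ t * ∑ y, w y * a y + t ^ 2 * B ^ 2 := by
  have h1 : ∀ y, w y * Real.exp (t * a y) ≤ w y * (1 + t * a y + t ^ 2 * B ^ 2) := by
    intro y
    refine mul_le_mul_of_nonneg_left ?_ (hw.1 y)
    have h2 : |t * a y| ≤ 1 := by
      rw [abs_mul, abs_of_nonneg ht]
      exact (mul_le_mul_of_nonneg_left (hB y) ht).trans htB
    have h3 := Real.abs_exp_sub_one_sub_id_le h2
    have h4 := (abs_le.1 h3).2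
    have h5 : (t * a y) ^ 2 ≤ t ^ 2 * B ^ 2 := by
      rw [mul_pow]
      refine mul_le_mul_of_nonneg_left ?_ (sq_nonneg t)
      rw [← sq_abs (a y)]
      exact pow_le_pow_left₀ (abs_nonneg _) (hB y) 2
    linarith
  have h2 : ∑ y, w y * Real.exp (t * a y) ≤ 1 + t * ∑ y, w y * a y + t ^ 2 * B ^ 2 := by
    refine (Finset.sum_le_sum fun y _ => h1 y).trans (le_of_eq ?_)
    have h3 : ∀ y, w y * (1 + t * a y + t ^ 2 * B ^ 2) =
        w y + t * (w y * a y) + w y * (t ^ 2 * B ^ 2) := fun y => by ring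
    simp_rw [h3, Finset.sum_add_distrib, ← Finset.mul_sum, ← Finset.sum_mul]
    rw [hw.2]
    ring
  have h3 := Real.log_le_sub_one_of_pos (SepRep_Zpos hw (fun y => t * a y))
  linarith

theorem SepRep_exists_small (B c : ℝ) (hc : 0 < c) (hB : 0 ≤ B) :
    ∃ t : ℝ, 0 < t ∧ t ≤ 1 ∧ t * B ≤ 1 ∧ t * B ^ 2 < c := by
  refine ⟨min 1 (min (1 / (B + 1)) (c / (2 * (B ^ 2 + 1)))), ?_, ?_, ?_, ?_⟩
  · refine lt_min (by norm_num) (lt_min (by positivity) (by positivity))
  · exact min_le_left _ _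
  · have h1 : min 1 (min (1 / (B + 1)) (c / (2 * (B ^ 2 + 1)))) ≤ 1 / (B + 1) :=
      (min_le_right _ _).trans (min_le_left _ _)
    refine (mul_le_mul_of_nonneg_right h1 hB).trans ?_
    rw [div_mul_eq_mul_div, div_le_one (by positivity)]
    linarith
  · have h1 : min 1 (min (1 / (B + 1)) (c / (2 * (B ^ 2 + 1)))) ≤ c / (2 * (B ^ 2 + 1)) :=
      (min_le_right _ _).trans (min_le_right _ _)
    refine lt_of_le_of_lt (mul_le_mul_of_nonneg_right h1 (sq_nonneg B)) ?_
    rw [div_mul_eq_mul_div, div_lt_iff₀ (by positivity)]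
    nlinarith [sq_nonneg B]

theorem sep_or_rep {E : Type*} [NormedAddCommGroup E] [NormedSpace ℝ E] [FiniteDimensional ℝ E]
    {π : Y → ℝ} (hπ : IsProb π) (p : Y → E) (x : E) {e η d : ℝ} (he : 0 ≤ e) (hη : 0 < η) :
    (∃ g : E →L[ℝ] ℝ, Real.log (∑ y, π y * Real.exp (g (p y))) - g x + e * ‖g‖ < -d) ∨
    (∃ w : Y → ℝ, IsProb w ∧ AC w π ∧ ‖x - bary w p‖ ≤ e + η ∧ KL w π ≤ d) := by
  by_cases hR : ∃ g : E →L[ℝ] ℝ,
      Real.log (∑ y, π y * Real.exp (g (p y))) - g x + e * ‖g‖ < -d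
  · exact Or.inl hR
  right
  push Not at hR
  -- the function to be minimised
  set Φ : (E →L[ℝ] ℝ) → ℝ := fun g =>
    Real.log (∑ y, π y * Real.exp (g (p y))) - g x + (e + η) * ‖g‖ with hΦ
  have hΦlow : ∀ g, -d + η * ‖g‖ ≤ Φ g := by
    intro g
    have := hR g
    rw [hΦ]
    simp only
    linarith
  have hΦ0 : Φ 0 = 0 := by
    rw [hΦ]
    simp [hπ.2]
  have hΦc : Continuous Φ := by
    rw [hΦ]
    have h1 : Continuous (fun g : E →L[ℝ] ℝ => ∑ y, π y * Real.exp (g (p y))) := by fun_prop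
    have h2 : Continuous (fun g : E →L[ℝ] ℝ => Real.log (∑ y, π y * Real.exp (g (p y)))) :=
      h1.log fun g => (SepRep_Zpos hπ (fun y => g (p y))).ne'
    fun_prop
  have : ProperSpace (E →L[ℝ] ℝ) := FiniteDimensional.proper ℝ (E →L[ℝ] ℝ)
  obtain ⟨g, -, hgmin⟩ := (isCompact_closedBall (0 : E →L[ℝ] ℝ) (|d| / η + 1)).exists_isMinOn
    ⟨0, Metric.mem_closedBall_self (by positivity)⟩ hΦc.continuousOn
  have hmin : ∀ g', Φ g ≤ Φ g' := by
    intro g'
    by_cases hg' : g' ∈ Metric.closedBall (0 : E →L[ℝ] ℝ) (|d| / η + 1)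
    · exact hgmin hg'
    · have h0 : Φ g ≤ Φ 0 := hgmin (Metric.mem_closedBall_self (by positivity))
      rw [mem_closedBall_zero_iff, not_le] at hg'
      have h1 := hΦlow g'
      have h2 : η * (|d| / η + 1) ≤ η * ‖g'‖ := mul_le_mul_of_nonneg_left hg'.le hη.le
      have h3 : η * (|d| / η + 1) = |d| + η := by field_simp
      have h4 := le_abs_self d
      rw [hΦ0] at h0
      linarith
  set Z : ℝ := ∑ y, π y * Real.exp (g (p y)) with hZ
  have hZpos : 0 < Z := SepRep_Zpos hπ (fun y => g (p y))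
  set w : Y → ℝ := fun y => π y * Real.exp (g (p y)) / Z with hw
  have hwP : IsProb w := by
    refine ⟨fun y => div_nonneg (mul_nonneg (hπ.1 y) (Real.exp_pos _).le) hZpos.le, ?_⟩
    rw [hw]
    simp only
    rw [← Finset.sum_div]
    exact div_self hZpos.ne'
  have hwAC : AC w π := by
    intro y hy
    rw [hw]
    simp only
    rw [hy]
    simp
  have hbary : ∀ h : E →L[ℝ] ℝ, h (bary w p) = ∑ y, w y * h (p y) := by
    intro h
    unfold bary
    rw [map_sum]
    refine Finset.sum_congr rfl fun y _ => ?_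
    rw [map_smul, smul_eq_mul]
  -- the cumulant function near `g`
  have hshift : ∀ a : Y → ℝ, Real.log (∑ y, π y * Real.exp (g (p y) + a y)) =
      Real.log Z + Real.log (∑ y, w y * Real.exp (a y)) := by
    intro a
    rw [← Real.log_mul hZpos.ne' (SepRep_Zpos hwP a).ne', Finset.mul_sum]
    congr 1
    refine Finset.sum_congr rfl fun y _ => ?_
    rw [hw]
    simp only
    rw [Real.exp_add]
    field_simp
  have hKL : KL w π = g (bary w p) - Real.log Z := by
    have h1 : ∀ y, w y * Real.log (w y / π y) = w y * g (p y) - w y * Real.log Z := by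
      intro y
      rcases (hπ.1 y).eq_or_lt with h0 | h0
      · rw [hwAC y h0.symm]
        ring
      · have h2 : w y / π y = Real.exp (g (p y)) / Z := by
          rw [hw]
          field_simp
        rw [h2, Real.log_div (Real.exp_pos _).ne' hZpos.ne', Real.log_exp]
        ring
    unfold KL
    simp_rw [h1]
    rw [Finset.sum_sub_distrib, ← Finset.sum_mul, hwP.2, one_mul, hbary]
  refine ⟨w, hwP, hwAC, ?_, ?_⟩
  · -- (a)
    by_contra hcon
    rw [not_le] at hcon
    have hv : x - bary w p ≠ 0 := by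
      intro h0
      rw [h0, norm_zero] at hcon
      linarith
    obtain ⟨h, hh1, hh2⟩ := exists_dual_vector ℝ (x - bary w p) (norm_ne_zero_iff.2 hv)
    have hh2' : h (x - bary w p) = ‖x - bary w p‖ := by simpa using hh2
    have hB : ∀ y, |h (p y)| ≤ ∑ y, ‖p y‖ := by
      intro y
      have h1 : |h (p y)| ≤ ‖h‖ * ‖p y‖ := h.le_opNorm (p y)
      rw [hh1, one_mul] at h1
      exact h1.trans (Finset.single_le_sum (f := fun y => ‖p y‖) (fun y _ => norm_nonneg _)
        (Finset.mem_univ y))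
    obtain ⟨t, ht0, -, htB, htc⟩ := SepRep_exists_small (∑ y, ‖p y‖)
      (‖x - bary w p‖ - (e + η)) (by linarith) (Finset.sum_nonneg fun y _ => norm_nonneg _)
    have h1 := hmin (g + t • h)
    have h2 : Real.log (∑ y, π y * Real.exp ((g + t • h) (p y))) =
        Real.log Z + Real.log (∑ y, w y * Real.exp (t * h (p y))) := by
      rw [← hshift]
      rfl
    have h3 := SepRep_log_le hwP (fun y => h (p y)) hB ht0.le htB
    have h4 : ‖g + t • h‖ ≤ ‖g‖ + t := by
      refine (norm_add_le _ _).trans ?_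
      rw [norm_smul, hh1, Real.norm_of_nonneg ht0.le, mul_one]
    have h5 : (g + t • h) x = g x + t * h x := rfl
    rw [hΦ] at h1
    simp only at h1
    rw [h2, h5] at h1
    have h6 : (e + η) * ‖g + t • h‖ ≤ (e + η) * (‖g‖ + t) :=
      mul_le_mul_of_nonneg_left h4 (by linarith)
    rw [← hbary] at h3
    rw [map_sub] at hh2'
    have h7 : 0 ≤ t * (-‖x - bary w p‖ + t * (∑ y, ‖p y‖) ^ 2 + (e + η)) := by
      rw [← hh2']
      linarith
    have h8 : t * (-‖x - bary w p‖ + t * (∑ y, ‖p y‖) ^ 2 + (e + η)) < 0 :=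
      mul_neg_of_pos_of_neg ht0 (by linarith)
    linarith
  · -- (b)
    have hkey : g (bary w p) ≤ g x - (e + η) * ‖g‖ := by
      by_contra hcon
      rw [not_le] at hcon
      have hB : ∀ y, |-(g (p y))| ≤ ∑ y, |g (p y)| := by
        intro y
        rw [abs_neg]
        exact Finset.single_le_sum (f := fun y => |g (p y)|) (fun y _ => abs_nonneg _)
          (Finset.mem_univ y)
      obtain ⟨t, ht0, ht1, htB, htc⟩ := SepRep_exists_small (∑ y, |g (p y)|)
        (g (bary w p) - (g x - (e + η) * ‖g‖)) (by linarith)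
        (Finset.sum_nonneg fun y _ => abs_nonneg _)
      have h1 := hmin ((1 - t) • g)
      have h2 : Real.log (∑ y, π y * Real.exp (((1 - t) • g) (p y))) =
          Real.log Z + Real.log (∑ y, w y * Real.exp (t * -(g (p y)))) := by
        rw [← hshift]
        congr 1
        refine Finset.sum_congr rfl fun y _ => ?_
        have : ((1 - t) • g) (p y) = g (p y) + t * -(g (p y)) := by
          rw [smul_apply, smul_eq_mul]
          ring
        rw [this]
      have h3 := SepRep_log_le hwP (fun y => -(g (p y))) hB ht0.le htB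
      have h4 : ‖(1 - t) • g‖ = (1 - t) * ‖g‖ := by
        rw [norm_smul, Real.norm_of_nonneg (by linarith)]
      have h5 : ((1 - t) • g) x = (1 - t) * g x := rfl
      rw [hΦ] at h1
      simp only at h1
      rw [h2, h4, h5] at h1
      have h6 : ∑ y, w y * -(g (p y)) = -(g (bary w p)) := by
        rw [hbary, ← Finset.sum_neg_distrib]
        exact Finset.sum_congr rfl fun y _ => by ring
      rw [h6] at h3
      have h7 : 0 ≤ t * (-(g (bary w p)) + t * (∑ y, |g (p y)|) ^ 2 + g x - (e + η) * ‖g‖) := by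
        linarith
      have h8 : t * (-(g (bary w p)) + t * (∑ y, |g (p y)|) ^ 2 + g x - (e + η) * ‖g‖) < 0 :=
        mul_neg_of_pos_of_neg ht0 (by linarith)
      linarith
    have h1 := hΦlow g
    rw [hΦ] at h1
    simp only at h1
    rw [hKL]
    have h2 : 0 ≤ η * ‖g‖ := mul_nonneg hη.le (norm_nonneg _)
    linarith

end P126
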