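import Vale.Agent.Lib.P126.SepRep
import Vale.Agent.Lib.P126.MaxSet
import Vale.Agent.Lib.P126.Greedy

/-!
P126-POW module Stage: one compression stage.

Proof.  Put `P = 2 + log (2M+2)`, `β = c P / Δ > 0`, `d = Δ / c`; `β d = P`, `β Δ = c P`.  Take `A` from
`exists_max_set` (for this `β`): `log |X| - c P ≤ log |A|`.  Let `π = avg A lam` (probability vector),
`e = err + η/2`.  Let `S` be the set of `x ∈ A` for which (S) of `sep_or_rep` holds with
`(x := pos x, e := err + η/2, η := η/2, d := d)`, and `B = A \ S`; for `x ∈ B` alternative (R) holds.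

Claim: `|A| ≤ 2 |S|`.  Otherwise `2 |B| ≥ |A|` (even `>`).  For `x ∈ B` let `g_x` be as in (R); `g_x ≠ 0`
(for `g = 0` the left side is `log 1 = 0 < -d`, false as `d > 0`), `t = ‖g_x‖ > 0`, `f_x = g_x / t`,
`s_x = f_x (pos x) - e`.  Then `f_x (z_x) ≥ f_x (pos x) - err = s_x + η/2` where `z_x = bary (lam x) p`.
Let `bad x = {x' ∈ A : s_x ≤ f_x (z_{x'})}`; `x ∈ bad x`, so it is nonempty.  The mean of `f_x ∘ p`
under `avg (bad x) lam` is the average of `f_x (z_{x'})` over `bad x`, so `≥ s_x`.  By `DV` with the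
function `g_x ∘ p`:
`KL (avg (bad x) lam) π ≥ t s_x - log ∑ π exp (g_x (p y)) = g_x (pos x) - e ‖g_x‖ - log ∑ … > d`.
By `exists_max_set`: `log |A| - log |bad x| ≥ β d - 1 = P - 1 = 1 + log (2M+2) > log (2M+2)`, so
`(2M+2) |bad x| ≤ |A|`.  By `greedy_seq` there are `x_0..x_M ∈ B` with `x_j ∉ bad x_i` for `i<j`, i.e.
`f_{x_i}(z_{x_j}) < s_{x_i} ≤ f_{x_i}(z_{x_i}) - η/2`: a code of length `M+1` with `δ = η/2` (the points
`z_x` are in `K` by convexity: `hK`), contradiction to `hM`.

So `|A| ≤ 2|S|`; in particular `S` nonempty; take `X' = S`, `lam'` = the chosen `w`, `ref' = π`.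
`log |X| ≤ log |A| + c P ≤ log |S| + log 2 + c P`.
-/

namespace P126

open Finset

variable {ι Y : Type*} [Fintype Y] [DecidableEq ι]

/-- `g` applied to the barycenter. -/
theorem stage_apply_bary {E : Type*} [NormedAddCommGroup E] [NormedSpace ℝ E] (w : Y → ℝ)
    (p : Y → E) (g : E →L[ℝ] ℝ) : g (bary w p) = ∑ y, w y * g (p y) := by
  unfold bary
  rw [map_sum]
  refine Finset.sum_congr rfl fun y _ => ?_
  rw [map_smul, smul_eq_mul]

/-- The mean under the average is the average of the means. -/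
theorem stage_sum_avg {E : Type*} [NormedAddCommGroup E] [NormedSpace ℝ E] (B : Finset ι)
    (lam : ι → Y → ℝ) (p : Y → E) (g : E →L[ℝ] ℝ) :
    ∑ y, avg B lam y * g (p y) = (∑ x ∈ B, g (bary (lam x) p)) / (B.card : ℝ) := by
  simp only [stage_apply_bary]
  rw [Finset.sum_comm, Finset.sum_div]
  refine Finset.sum_congr rfl fun y _ => ?_
  unfold avg
  rw [div_mul_eq_mul_div, Finset.sum_mul]

theorem stage_mean_ge {E : Type*} [NormedAddCommGroup E] [NormedSpace ℝ E] (B : Finset ι)
    (hB : B.Nonempty) (lam : ι → Y → ℝ) (p : Y → E) (g : E →L[ℝ] ℝ) (a : ℝ)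
    (h : ∀ x ∈ B, a ≤ g (bary (lam x) p)) : a ≤ ∑ y, avg B lam y * g (p y) := by
  rw [stage_sum_avg]
  have hc : (0 : ℝ) < B.card := by exact_mod_cast hB.card_pos
  rw [le_div_iff₀ hc]
  have := Finset.sum_le_sum h
  rw [Finset.sum_const, nsmul_eq_mul] at this
  linarith

/-- The main part of the proof: at least half of the points of `A` are represented. -/
theorem stage_half {E : Type*} [NormedAddCommGroup E] [NormedSpace ℝ E] [FiniteDimensional ℝ E]
    (K : Set E) (hK : Convex ℝ K) (p : Y → E) (hp : ∀ y, p y ∈ K)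
    (A S : Finset ι) (hA : A.Nonempty) (hSA : S ⊆ A) (pos : ι → E) (lam : ι → Y → ℝ)
    (hlam : ∀ x ∈ A, IsProb (lam x)) {err η β d : ℝ} (hη : 0 < η) (hd : 0 < d)
    (herr : ∀ x ∈ A, ‖pos x - bary (lam x) p‖ ≤ err)
    (M : ℕ) (hM : NoCode K (η / 2) (M + 1))
    (hβd : β * d = 2 + Real.log (2 * M + 2))
    (hmax : ∀ B ⊆ A, B.Nonempty → ∀ d : ℝ, d ≤ KL (avg B lam) (avg A lam) →
        β * d - 1 ≤ Real.log A.card - Real.log B.card)
    (hS : ∀ x ∈ A, x ∉ S → ∃ g : E →L[ℝ] ℝ,
      Real.log (∑ y, avg A lam y * Real.exp (g (p y))) - g (pos x) + (err + η / 2) * ‖g‖ < -d) :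
    A.card ≤ 2 * S.card := by
  by_contra hcon
  push Not at hcon
  set B := A \ S with hB
  have hBA : B ⊆ A := Finset.sdiff_subset
  have hcard : S.card + B.card = A.card := by
    rw [hB, Finset.card_sdiff_of_subset hSA]
    have := Finset.card_le_card hSA
    omega
  have hB2 : A.card ≤ 2 * B.card := by omega
  have hπ : IsProb (avg A lam) := avg_isProb hA hlam
  have hS' : ∀ x, ∃ g : E →L[ℝ] ℝ, x ∈ B →
      Real.log (∑ y, avg A lam y * Real.exp (g (p y))) - g (pos x) + (err + η / 2) * ‖g‖ < -d := by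
    intro x
    by_cases hx : x ∈ B
    · rw [hB, Finset.mem_sdiff] at hx
      obtain ⟨g, hg⟩ := hS x hx.1 hx.2
      exact ⟨g, fun _ => hg⟩
    · exact ⟨0, fun h => absurd h hx⟩
  choose g hg using hS'
  have hg0 : ∀ x ∈ B, 0 < ‖g x‖ := by
    intro x hx
    rw [norm_pos_iff]
    intro h0
    have h1 := hg x hx
    rw [h0] at h1
    simp only [_root_.zero_apply, Real.exp_zero, mul_one, hπ.2, Real.log_one,
      norm_zero, mul_zero, sub_zero, add_zero] at h1
    linarith
  -- `bad x` in terms of `g x`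
  set bad : ι → Finset ι := fun x => A.filter
    (fun x' => g x (pos x) - (err + η / 2) * ‖g x‖ ≤ g x (bary (lam x') p)) with hbad
  have hself : ∀ x ∈ B, g x (pos x) - err * ‖g x‖ ≤ g x (bary (lam x) p) := by
    intro x hx
    have h1 := (g x).le_opNorm (pos x - bary (lam x) p)
    rw [map_sub, Real.norm_eq_abs] at h1
    have h2 := le_abs_self (g x (pos x) - g x (bary (lam x) p))
    have h3 : ‖g x‖ * ‖pos x - bary (lam x) p‖ ≤ ‖g x‖ * err :=
      mul_le_mul_of_nonneg_left (herr x (hBA hx)) (norm_nonneg _)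
    linarith
  have hbadcard : ∀ x ∈ B, (2 * M + 2) * (bad x).card ≤ A.card := by
    intro x hx
    have hbA : bad x ⊆ A := Finset.filter_subset _ _
    have hne : (bad x).Nonempty := by
      refine ⟨x, ?_⟩
      rw [hbad]
      simp only [Finset.mem_filter]
      refine ⟨hBA hx, ?_⟩
      have h1 := hself x hx
      have h2 : 0 < ‖g x‖ * (η / 2) := mul_pos (hg0 x hx) (by linarith)
      linarith
    have hmean := stage_mean_ge (bad x) hne lam p (g x)
      (g x (pos x) - (err + η / 2) * ‖g x‖) (by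
        intro x' hx'
        rw [hbad] at hx'
        simp only [Finset.mem_filter] at hx'
        exact hx'.2)
    have hprob : IsProb (avg (bad x) lam) := avg_isProb hne fun x' hx' => hlam x' (hbA hx')
    have hAC : AC (avg (bad x) lam) (avg A lam) :=
      avg_ac fun x' hx' => ac_avg hlam (hbA hx')
    have hDV := DV hprob hπ hAC (fun y => g x (p y))
    have h1 := hg x hx
    have h2 : d ≤ KL (avg (bad x) lam) (avg A lam) := by linarith
    have h3 := hmax (bad x) hbA hne d h2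
    rw [hβd] at h3
    have hc1 : (0 : ℝ) < (bad x).card := by exact_mod_cast hne.card_pos
    have hc2 : (0 : ℝ) < A.card := by exact_mod_cast hA.card_pos
    have hM0 : (0 : ℝ) < 2 * M + 2 := by positivity
    have h4 : Real.log ((2 * M + 2) * (bad x).card) ≤ Real.log A.card := by
      rw [Real.log_mul hM0.ne' hc1.ne']
      linarith
    rw [Real.log_le_log_iff (by positivity) hc2] at h4
    exact_mod_cast h4
  obtain ⟨x, hx1, hx2⟩ := greedy_seq A B hA hB2 bad M hbadcard
  apply hM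
  refine ⟨fun i => bary (lam (x i)) p, fun i => (‖g (x i)‖)⁻¹ • g (x i), ?_, ?_, ?_⟩
  · intro i
    have h1 := hlam (x i) (hBA (hx1 i))
    exact hK.sum_mem (fun y _ => h1.1 y) h1.2 (fun y _ => hp y)
  · intro i
    rw [norm_smul, norm_inv, norm_norm, inv_mul_cancel₀ (hg0 _ (hx1 i)).ne']
  · intro i j hij
    have h1 := hx2 i j hij
    have h2 := hself (x i) (hx1 i)
    have hpos := hg0 (x i) (hx1 i)
    have h3 : g (x i) (bary (lam (x j)) p) <
        g (x i) (pos (x i)) - (err + η / 2) * ‖g (x i)‖ := by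
      by_contra hc
      push Not at hc
      apply h1
      rw [hbad]
      simp only [Finset.mem_filter]
      exact ⟨hBA (hx1 j), hc⟩
    simp only [_root_.smul_apply, smul_eq_mul]
    have h4 : g (x i) (bary (lam (x j)) p) + ‖g (x i)‖ * (η / 2) ≤
        g (x i) (bary (lam (x i)) p) := by linarith
    have h5 := mul_le_mul_of_nonneg_left h4 (inv_pos.mpr hpos).le
    rw [mul_add, ← mul_assoc _ ‖g (x i)‖, inv_mul_cancel₀ hpos.ne', one_mul] at h5
    exact h5

theorem stage {E : Type*} [NormedAddCommGroup E] [NormedSpace ℝ E] [FiniteDimensional ℝ E]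
    (K : Set E) (hK : Convex ℝ K) (p : Y → E) (hp : ∀ y, p y ∈ K)
    (X : Finset ι) (hX : X.Nonempty) (pos : ι → E) (lam : ι → Y → ℝ)
    (hlam : ∀ x ∈ X, IsProb (lam x)) (ref : Y → ℝ) (href : IsProb ref)
    (hac : ∀ x ∈ X, AC (lam x) ref) {Δ err η c : ℝ} (hΔ : 0 < Δ) (hη : 0 < η) (hc : 0 < c)
    (herr0 : 0 ≤ err)
    (hKL : ∀ x ∈ X, KL (lam x) ref ≤ Δ) (herr : ∀ x ∈ X, ‖pos x - bary (lam x) p‖ ≤ err)
    (M : ℕ) (hM : NoCode K (η / 2) (M + 1)) :
    ∃ (X' : Finset ι) (lam' : ι → Y → ℝ) (ref' : Y → ℝ), X' ⊆ X ∧ X'.Nonempty ∧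
      Real.log X.card ≤ Real.log X'.card + c * (2 + Real.log (2 * M + 2)) + Real.log 2 ∧
      IsProb ref' ∧ (∀ x ∈ X', IsProb (lam' x)) ∧ (∀ x ∈ X', AC (lam' x) ref') ∧
      (∀ x ∈ X', KL (lam' x) ref' ≤ Δ / c) ∧
      (∀ x ∈ X', ‖pos x - bary (lam' x) p‖ ≤ err + η) := by
  classical
  have hlog : 0 ≤ Real.log (2 * M + 2) := by
    apply Real.log_nonneg
    have : (0 : ℝ) ≤ M := Nat.cast_nonneg M
    linarith
  set P := 2 + Real.log (2 * M + 2) with hP
  have hP0 : 0 < P := by linarith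
  set β := c * P / Δ with hβ
  have hβ0 : 0 < β := by positivity
  obtain ⟨A, hAX, hA, hAlog, hmax⟩ := exists_max_set X hX lam hlam ref href hac hβ0 hKL
  have hlamA : ∀ x ∈ A, IsProb (lam x) := fun x hx => hlam x (hAX hx)
  have hπ : IsProb (avg A lam) := avg_isProb hA hlamA
  set S := A.filter (fun x => ∃ w : Y → ℝ, IsProb w ∧ AC w (avg A lam) ∧
    ‖pos x - bary w p‖ ≤ (err + η / 2) + η / 2 ∧ KL w (avg A lam) ≤ Δ / c) with hS
  have hSA : S ⊆ A := Finset.filter_subset _ _
  have hcard : A.card ≤ 2 * S.card := by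
    refine stage_half K hK p hp A S hA hSA pos lam hlamA (err := err) (β := β) (d := Δ / c)
      hη (by positivity) (fun x hx => herr x (hAX hx)) M hM ?_ hmax ?_
    · rw [hβ, hP]
      field_simp
    · intro x hxA hxS
      rcases sep_or_rep hπ p (pos x) (e := err + η / 2) (η := η / 2) (d := Δ / c)
        (by linarith) (by linarith) with h | h
      · exact h
      · exact absurd (by rw [hS, Finset.mem_filter]; exact ⟨hxA, h⟩) hxS
  have hSne : S.Nonempty := by
    rw [← Finset.card_pos]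
    have := hA.card_pos
    omega
  have hw : ∀ x, ∃ w : Y → ℝ, x ∈ S → IsProb w ∧ AC w (avg A lam) ∧
      ‖pos x - bary w p‖ ≤ (err + η / 2) + η / 2 ∧ KL w (avg A lam) ≤ Δ / c := by
    intro x
    by_cases hx : x ∈ S
    · have hx' := hx
      rw [hS, Finset.mem_filter] at hx'
      obtain ⟨w, hw⟩ := hx'.2
      exact ⟨w, fun _ => hw⟩
    · exact ⟨0, fun h => absurd h hx⟩
  choose w hw using hw
  refine ⟨S, w, avg A lam, hSA.trans hAX, hSne, ?_, hπ, fun x hx => (hw x hx).1,
    fun x hx => (hw x hx).2.1, fun x hx => (hw x hx).2.2.2, fun x hx => ?_⟩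
  · have h1 : β * Δ = c * P := by
      rw [hβ]
      field_simp
    rw [h1] at hAlog
    have hc1 : (0 : ℝ) < A.card := by exact_mod_cast hA.card_pos
    have hc2 : (0 : ℝ) < S.card := by exact_mod_cast hSne.card_pos
    have h2 : Real.log A.card ≤ Real.log 2 + Real.log S.card := by
      rw [← Real.log_mul (by norm_num) hc2.ne']
      apply Real.log_le_log hc1
      exact_mod_cast hcard
    linarith
  · have := (hw x hx).2.2.1
    linarith

end P126
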